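import Vale.Agent.P165.HighDim.Pivot
import Vale.Agent.P165.SharpCor

/-!
A small diagram forces the expected cluster size to blow up before `p` with `p (D (1 - p) - 2Φ) > 1`.
-/

open Finset
open scoped unitInterval

namespace Vale.Agent.P165.HighDim

variable {W : Type*} [DecidableEq W] {H : SimpleGraph W} [H.LocallyFinite]

/-- Expected size of the cluster of `v` inside `Λ`, in the edge set `U`. -/
noncomputable def size (p : ℝ) (U : Finset (Sym2 W)) (Λ : Finset W) (v : W) : ℝ :=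
  ∑ z ∈ Λ, tau p U v z

lemma size_mono {p q : ℝ} (h0 : 0 ≤ p) (hpq : p ≤ q) (h1 : q ≤ 1) {U U' : Finset (Sym2 W)}
    (hU : U ⊆ U') {Λ Λ' : Finset W} (hΛ : Λ ⊆ Λ') (v : W) : size p U Λ v ≤ size q U' Λ' v := by
  refine (sum_le_sum fun z _ => ?_).trans
    (sum_le_sum_of_subset_of_nonneg hΛ fun z _ _ => tau_nonneg (h0.trans hpq) h1 U' v z)
  exact (pr_monotoneOn U (fun S T hST h => cl_mono subset_rfl hST h) ⟨h0, hpq.trans h1⟩
    ⟨h0.trans hpq, h1⟩ hpq).trans (tau_mono (h0.trans hpq) h1 hU v z)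

lemma size_iso (p : ℝ) (φ : H ≃g H) (U : Finset (Sym2 W)) (Λ : Finset W) (v : W) :
    size p (U.map φ.toEquiv.toEmbedding.sym2Map) (Λ.map φ.toEquiv.toEmbedding) (φ v)
      = size p U Λ v := by
  simp only [size, sum_map, tau]
  refine sum_congr rfl fun z _ => ?_
  rw [pr_image]
  exact pr_congr fun T _ => cl_map φ.toEquiv v z T

lemma edge_iso (φ : H ≃g H) {U : Finset (Sym2 W)} (hU : ↑U ⊆ H.edgeSet) :
    ↑(U.map φ.toEquiv.toEmbedding.sym2Map) ⊆ H.edgeSet := by
  intro e he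
  obtain ⟨e', he', rfl⟩ := mem_map.1 (mem_coe.1 he)
  have := hU (mem_coe.2 he')
  induction e' with
  | h a b => exact φ.map_adj_iff.2 this

variable {D : ℕ}

/-- The finite set of edges at `B`. -/
noncomputable def star (H : SimpleGraph W) [H.LocallyFinite] (B : Finset W) : Finset (Sym2 W) :=
  B.biUnion fun u => (H.neighborFinset u).image fun v => s(u, v)

/-- The diagram hypothesis. -/
def SmallDiagram (H : SimpleGraph W) [H.LocallyFinite] (p₁ Φ : ℝ) : Prop :=
  ∀ t : ℝ, 0 ≤ t → t ≤ p₁ → ∀ (U : Finset (Sym2 W)) (Ω B : Finset W), ↑U ⊆ H.edgeSet →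
    (∀ e ∈ U, ∀ x ∈ e, x ∈ Ω) → B ⊆ Ω → (∀ u ∈ B, ∀ v ∈ H.neighborFinset u, v ∈ Ω) →
    ∀ y ∈ Ω, ∑ u ∈ B, ∑ v ∈ H.neighborFinset u, ∑ w ∈ Ω,
      tau t (U.erase s(u, v)) y u * tau t (U.erase s(u, v)) v w * tau t (U.erase s(u, v)) w y ≤ Φ

/-- The threshold is at most `p₁`. -/
theorem pc_le_of_small_diagram (hH : H.Connected) (htr : ∀ x y : W, ∃ φ : H ≃g H, φ x = y)
    (hD : ∀ x, (H.neighborFinset x).card = D) {p₁ Φ : ℝ} (hp0 : 0 < p₁) (hp1 : p₁ < 1)
    (hΦ0 : 0 ≤ Φ) (hΦ : SmallDiagram H p₁ Φ)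
    (hbig : 1 < p₁ * ((D : ℝ) * (1 - p₁) - 2 * Φ)) : pc H ≤ p₁ := by
  classical
  by_contra hlt
  push Not at hlt
  obtain ⟨o⟩ := hH.nonempty
  have hQT : QuasiTransitive H := ⟨{o}, Set.finite_singleton o, fun v => by
    obtain ⟨φ, hφ⟩ := htr v o
    exact ⟨φ, by simp [hφ]⟩⟩
  set P : I := ⟨p₁, hp0.le, hp1.le⟩
  obtain ⟨C, hC⟩ := sharp_susceptibility hH hQT P hlt
  set X : ℝ → Set ℝ := fun q => {x | ∃ (U : Finset (Sym2 W)) (Λ : Finset W),
    ↑U ⊆ H.edgeSet ∧ x = size q U Λ o}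
  have hbd : ∀ q, 0 ≤ q → q ≤ p₁ → ∀ x ∈ X q, x ≤ C := by
    rintro q hq0 hq1 x ⟨U, Λ, hU, rfl⟩
    exact (size_mono hq0 hq1 hp1.le subset_rfl subset_rfl o).trans ((hC o Λ).1 U hU)
  set M : ℝ → ℝ := fun q => sSup (X q)
  have hne : ∀ q, (1 : ℝ) ∈ X q := fun q => ⟨∅, {o}, by simp, by
    rw [size, sum_singleton, tau, ← pr_true q (∅ : Finset (Sym2 W))]
    exact pr_congr fun S _ => ⟨fun _ => subset_cl _ _ rfl, fun _ => trivial⟩⟩
  have hMle : ∀ q, 0 ≤ q → q ≤ p₁ → ∀ (U : Finset (Sym2 W)) (Λ : Finset W) (v : W),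
      ↑U ⊆ H.edgeSet → size q U Λ v ≤ M q := by
    intro q hq0 hq1 U Λ v hU
    obtain ⟨φ, hφ⟩ := htr v o
    refine le_csSup ⟨C, hbd q hq0 hq1⟩
      ⟨U.map φ.toEquiv.toEmbedding.sym2Map, Λ.map φ.toEquiv.toEmbedding, edge_iso φ hU, ?_⟩
    rw [← hφ, size_iso]
  have hM1 : ∀ q, 0 ≤ q → q ≤ p₁ → 1 ≤ M q := fun q hq0 hq1 =>
    le_csSup ⟨C, hbd q hq0 hq1⟩ (hne q)
  have hMC : ∀ q, 0 ≤ q → q ≤ p₁ → M q ≤ C := fun q hq0 hq1 =>
    csSup_le ⟨1, hne q⟩ (hbd q hq0 hq1)
  have hMmono : ∀ a b, 0 ≤ a → a ≤ b → b ≤ p₁ → M a ≤ M b := by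
    intro a b ha hab hb
    refine csSup_le ⟨1, hne a⟩ ?_
    rintro _ ⟨U, Λ, hU, rfl⟩
    exact (size_mono ha hab (hb.trans hp1.le) subset_rfl subset_rfl o).trans
      (hMle b (ha.trans hab) hb U Λ o hU)
  -- one step
  have key : ∀ a b, 0 ≤ a → a ≤ b → b ≤ p₁ → b * M b < M a →
      (b - a) * ((D : ℝ) * (M a - b * M b) ^ 2 - 2 * Φ * M b ^ 2) ≤ M b - M a := by
    intro a b ha hab hb hbM
    have hMb : 0 ≤ M b := zero_le_one.trans (hM1 b (ha.trans hab) hb)
    have heps : ∀ ε, 0 < ε → ε ≤ M a - b * M b →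
        (b - a) * ((D : ℝ) * (M a - ε - b * M b) ^ 2 - 2 * Φ * M b ^ 2) ≤ M b - (M a - ε) := by
      intro ε hε hεle
      obtain ⟨_, ⟨U₀, Λ₀, hU₀, rfl⟩, hsz⟩ := exists_lt_of_lt_csSup ⟨1, hne a⟩
        (show M a - ε < sSup (X a) by simp only [M]; linarith)
      choose φ hφ using fun v => htr o v
      set V := Λ₀.biUnion fun u => H.neighborFinset u
      set U := U₀ ∪ star H Λ₀ ∪ V.biUnion fun v => U₀.map (φ v).toEquiv.toEmbedding.sym2Map
      set Λ := Λ₀ ∪ V.biUnion fun v => Λ₀.map (φ v).toEquiv.toEmbedding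
      set Ω := insert o ((U.biUnion fun e => e.toFinset) ∪ Λ₀ ∪ V)
      have hU : ↑U ⊆ H.edgeSet := by
        intro e he
        rcases mem_union.1 (mem_coe.1 he) with he | he
        · rcases mem_union.1 he with he | he
          · exact hU₀ (mem_coe.2 he)
          · obtain ⟨u, -, hv⟩ := mem_biUnion.1 he
            obtain ⟨w, hw, rfl⟩ := mem_image.1 hv
            exact (SimpleGraph.mem_neighborFinset H u w).1 hw
        · obtain ⟨v, -, hv⟩ := mem_biUnion.1 he
          exact edge_iso (φ v) hU₀ (mem_coe.2 hv)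
      have hΩ : ∀ e ∈ U, ∀ x ∈ e, x ∈ Ω := fun e he x hx => mem_insert_of_mem
        (mem_union_left _ (mem_union_left _ (mem_biUnion.2 ⟨e, he, Sym2.mem_toFinset.2 hx⟩)))
      have hBΩ : Λ₀ ⊆ Ω := fun x hx => mem_insert_of_mem (mem_union_left _ (mem_union_right _ hx))
      have hN : ∀ u ∈ Λ₀, ∀ v ∈ H.neighborFinset u, v ∈ Ω ∧ s(u, v) ∈ U := fun u hu v hv =>
        ⟨mem_insert_of_mem (mem_union_right _ (mem_biUnion.2 ⟨u, hu, hv⟩)),
          mem_union_left _ (mem_union_right _ (mem_biUnion.2 ⟨u, hu, mem_image.2 ⟨v, hv, rfl⟩⟩))⟩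
      have hU₀U : U₀ ⊆ U := subset_union_left.trans subset_union_left
      set f : ℝ → ℝ := fun t => size t U Λ o
      set f' : ℝ → ℝ := fun t => ∑ z ∈ Λ, ∑ e ∈ U,
        (pr t (U.erase e) (fun S => conn o z (insert e S)) - pr t (U.erase e) (conn o z))
      have hf : ∀ t, HasDerivAt f (f' t) t := fun t =>
        HasDerivAt.fun_sum fun z _ => hasDerivAt_pr t U (conn o z)
      have hf' : ∀ t ∈ Set.Icc a b,
          (D : ℝ) * (M a - ε - b * M b) ^ 2 - 2 * Φ * M b ^ 2 ≤ f' t := by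
        intro t ⟨hat, htb⟩
        have ht0 : 0 ≤ t := ha.trans hat
        have ht1 : t ≤ 1 := htb.trans (hb.trans hp1.le)
        have hMt : ∀ (x : W) (Λ' : Finset W), ∑ z ∈ Λ', tau t U x z ≤ M b := fun x Λ' =>
          (hMle t ht0 (htb.trans hb) U Λ' x hU).trans (hMmono t b ht0 htb hb)
        have htM : t * M b ≤ b * M b := mul_le_mul_of_nonneg_right htb hMb
        have hL : ∀ u ∈ Λ₀, ∀ v ∈ H.neighborFinset u, M a - ε ≤ ∑ z ∈ Λ, tau t U v z := by
          intro u hu v hv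
          have hvV : v ∈ V := mem_biUnion.2 ⟨u, hu, hv⟩
          refine hsz.le.trans ?_
          rw [← size_iso a (φ v) U₀ Λ₀ o, hφ v]
          refine size_mono ha hat ht1 ?_ ?_ v
          · exact fun e he => mem_union_right _ (mem_biUnion.2 ⟨v, hvV, he⟩)
          · exact fun x hx => mem_union_right _ (mem_biUnion.2 ⟨v, hvV, hx⟩)
        have h := deriv_ge hD ht0 ht1 hΩ (mem_insert_self o _) hN hMt hL (by linarith)
          (hΦ t ht0 (htb.trans hb) U Ω Λ₀ hU hΩ hBΩ fun u hu v hv => (hN u hu v hv).1)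
        rw [sum_comm] at h
        refine le_trans ?_ h
        have hX : M a - ε ≤ ∑ u ∈ Λ₀, tau t U o u :=
          hsz.le.trans (size_mono ha hat ht1 hU₀U subset_rfl o)
        refine sub_le_sub ?_ le_rfl
        rw [sq, ← mul_assoc]
        exact mul_le_mul (mul_le_mul_of_nonneg_left (by linarith) (Nat.cast_nonneg D)) (by linarith)
          (by linarith) (mul_nonneg (Nat.cast_nonneg D) (by linarith))
      have hmvt := (convex_Icc a b).mul_sub_le_image_sub_of_le_deriv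
        (fun t _ => (hf t).continuousAt.continuousWithinAt)
        (fun t _ => (hf t).differentiableAt.differentiableWithinAt)
        (fun t ht => by
          rw [(hf t).deriv]
          exact hf' t (interior_subset ht))
        a (Set.left_mem_Icc.2 hab) b (Set.right_mem_Icc.2 hab) hab
      have h1 : f b ≤ M b := hMle b (ha.trans hab) hb U Λ o hU
      have h2 : M a - ε ≤ f a := hsz.le.trans
        (size_mono ha le_rfl (hab.trans (hb.trans hp1.le)) hU₀U subset_union_left o)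
      linarith
    have hcont : Filter.Tendsto (fun ε => M b - (M a - ε)
        - (b - a) * ((D : ℝ) * (M a - ε - b * M b) ^ 2 - 2 * Φ * M b ^ 2))
        (nhdsWithin 0 (Set.Ioi 0)) (nhds (M b - M a
          - (b - a) * ((D : ℝ) * (M a - b * M b) ^ 2 - 2 * Φ * M b ^ 2))) := by
      have h : Continuous (fun ε => M b - (M a - ε)
        - (b - a) * ((D : ℝ) * (M a - ε - b * M b) ^ 2 - 2 * Φ * M b ^ 2)) := by fun_prop
      simpa using (h.tendsto 0).mono_left nhdsWithin_le_nhds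
    have hev : ∀ᶠ ε in nhdsWithin (0 : ℝ) (Set.Ioi 0), 0 ≤ M b - (M a - ε)
        - (b - a) * ((D : ℝ) * (M a - ε - b * M b) ^ 2 - 2 * Φ * M b ^ 2) := by
      filter_upwards [self_mem_nhdsWithin,
        nhdsWithin_le_nhds (eventually_le_nhds (sub_pos.2 hbM))] with ε h1 h2
      linarith [heps ε h1 h2]
    linarith [ge_of_tendsto hcont hev]
  -- parameters
  obtain ⟨η, ⟨hη1, hηp⟩, hη⟩ : ∃ η : ℝ,
      (1 < p₁ / (1 + η) * ((D : ℝ) * (1 - (1 + η) ^ 2 * p₁) - 2 * Φ * (1 + η) ^ 2)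
        ∧ (1 + η) * p₁ < 1) ∧ 0 < η := by
    have h1 : ContinuousAt
        (fun η : ℝ => p₁ / (1 + η) * ((D : ℝ) * (1 - (1 + η) ^ 2 * p₁) - 2 * Φ * (1 + η) ^ 2)) 0 :=
      (continuousAt_const.div (continuousAt_const.add continuousAt_id) (by norm_num)).mul
        (Continuous.continuousAt (by fun_prop))
    have h2 : ContinuousAt (fun η : ℝ => (1 + η) * p₁) 0 := Continuous.continuousAt (by fun_prop)
    have e1 := h1.eventually_const_lt (show (1 : ℝ) < _ by simpa using hbig)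
    have e2 := h2.eventually_lt_const (show _ < (1 : ℝ) by simpa using hp1)
    exact (((e1.and e2).filter_mono nhdsWithin_le_nhds).and
      (self_mem_nhdsWithin : Set.Ioi (0 : ℝ) ∈ nhdsWithin 0 _)).exists
  have hC1 : 1 ≤ C := (hM1 0 le_rfl hp0.le).trans (hMC 0 le_rfl hp0.le)
  obtain ⟨N, hN⟩ := exists_nat_gt (max (1 / η) (p₁ * D * ((1 + η) * C) / η))
  rw [max_lt_iff] at hN
  have hN0 : (0 : ℝ) < N := lt_trans (by positivity) hN.1
  set h := p₁ / N
  have hh : 0 < h := div_pos hp0 hN0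
  have hhN : h * N = p₁ := div_mul_cancel₀ _ hN0.ne'
  set m : ℕ → ℝ := fun i => M (h * i)
  have hrange : ∀ i, i ≤ N → 0 ≤ h * i ∧ h * i ≤ p₁ := fun i hi =>
    ⟨mul_nonneg hh.le (Nat.cast_nonneg i),
      le_trans (mul_le_mul_of_nonneg_left (Nat.cast_le.2 hi) hh.le) hhN.le⟩
  set κ : ℕ → ℝ := fun i => h / (1 + η) *
    ((D : ℝ) * (1 - 2 * (1 + η) * (h * (i + 1))) - 2 * Φ * (1 + η) ^ 2)
  have hstep : ∀ i ∈ range N, κ i ≤ 1 / m i - 1 / m (i + 1) := by
    intro i hi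
    have hi' := mem_range.1 hi
    obtain ⟨ha0, ha1⟩ := hrange i hi'.le
    obtain ⟨hb0, hb1⟩ := hrange (i + 1) hi'
    have hab : h * i ≤ h * ((i + 1 : ℕ) : ℝ) :=
      mul_le_mul_of_nonneg_left (Nat.cast_le.2 (Nat.le_succ i)) hh.le
    set b := h * ((i + 1 : ℕ) : ℝ) with hbdef
    have hb' : h * ((i : ℝ) + 1) = b := by rw [hbdef]; push_cast; rfl
    have hA : 1 ≤ m i := hM1 _ ha0 ha1
    have hAB : m i ≤ m (i + 1) := hMmono _ _ ha0 hab hb1
    have hB : m (i + 1) ≤ C := hMC _ hb0 hb1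
    set A := m i
    set B := m (i + 1)
    have hBdef : B = M b := rfl
    have hA0 : 0 < A := lt_of_lt_of_le one_pos hA
    have hB0 : 0 < B := lt_of_lt_of_le hA0 hAB
    rw [div_sub_div _ _ hA0.ne' hB0.ne', one_mul, mul_one, le_div_iff₀ (mul_pos hA0 hB0)]
    show κ i * (A * B) ≤ B - A
    simp only [κ, hb']
    set s := (1 + η) * b with hs
    have hs0 : 0 ≤ s := mul_nonneg (by linarith) hb0
    have hs1 : s < 1 := lt_of_le_of_lt (mul_le_mul_of_nonneg_left hb1 (by linarith)) hηp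
    set Kl := (D : ℝ) * (1 - 2 * (1 + η) * b) - 2 * Φ * (1 + η) ^ 2 with hKl
    rcases le_or_gt Kl 0 with hneg | hpos
    · refine le_trans (mul_nonpos_of_nonpos_of_nonneg
        (mul_nonpos_of_nonneg_of_nonpos (by positivity) hneg) (mul_pos hA0 hB0).le) (sub_nonneg.2 hAB)
    have hKD : Kl ≤ D := by
      rw [hKl]
      nlinarith [mul_nonneg (Nat.cast_nonneg D : (0 : ℝ) ≤ D) hs0,
        mul_nonneg hΦ0 (sq_nonneg (1 + η))]
    rcases le_or_gt ((1 + η) * A) B with hjump | hsmall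
    · have h1 : h / (1 + η) * Kl * A ≤ η / (1 + η) := by
        have hAC : A ≤ C := hAB.trans hB
        calc h / (1 + η) * Kl * A ≤ h / (1 + η) * D * C :=
              mul_le_mul (mul_le_mul_of_nonneg_left hKD (by positivity)) hAC hA0.le (by positivity)
          _ ≤ η / (1 + η) := by
              have h2 := hN.2
              rw [div_lt_iff₀ hη] at h2
              rw [div_mul_eq_mul_div, div_mul_eq_mul_div,
                div_le_div_iff_of_pos_right (by linarith : (0 : ℝ) < 1 + η)]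
              refine le_of_mul_le_mul_right ?_ hN0
              have e : h * D * C * N = p₁ * D * C := by rw [← hhN]; ring
              rw [e]
              have : 0 ≤ p₁ * D * C * η := by positivity
              linarith
      have h2 := mul_le_mul_of_nonneg_right h1 hB0.le
      have h3 : η / (1 + η) * B ≤ B - A := by
        rw [div_mul_eq_mul_div, div_le_iff₀ (by linarith)]
        nlinarith
      linarith
    · have hbM : b * M b < A := by
        rw [← hBdef]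
        calc b * B ≤ b * ((1 + η) * A) := mul_le_mul_of_nonneg_left hsmall.le hb0
          _ = s * A := by rw [hs]; ring
          _ < 1 * A := mul_lt_mul_of_pos_right hs1 hA0
          _ = A := one_mul A
      have hk := key (h * i) b ha0 hab hb1 hbM
      rw [show b - h * (i : ℝ) = h by rw [hbdef]; push_cast; ring, ← hBdef,
        show M (h * (i : ℝ)) = A from rfl] at hk
      have e1 : A * (1 - s) ≤ A - b * B := by
        have := mul_le_mul_of_nonneg_left hsmall.le hb0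
        rw [hs]; linarith
      have e2 := pow_le_pow_left₀ (mul_nonneg hA0.le (by linarith)) e1 2
      have e3 := pow_le_pow_left₀ hB0.le hsmall.le 2
      have e4 : A ^ 2 * Kl ≤ (D : ℝ) * (A - b * B) ^ 2 - 2 * Φ * B ^ 2 := by
        have e5 := mul_le_mul_of_nonneg_left e2 (Nat.cast_nonneg D : (0 : ℝ) ≤ D)
        have e6 := mul_le_mul_of_nonneg_left e3 (mul_nonneg zero_le_two hΦ0)
        have e7 : 0 ≤ (D : ℝ) * (A * s) ^ 2 := by positivity
        rw [hKl]
        rw [hs] at e5 e7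
        linarith
      have e8 : h / (1 + η) * Kl * (A * B) ≤ h * (A ^ 2 * Kl) := by
        calc h / (1 + η) * Kl * (A * B) ≤ h / (1 + η) * Kl * (A * ((1 + η) * A)) :=
              mul_le_mul_of_nonneg_left (mul_le_mul_of_nonneg_left hsmall.le hA0.le) (by positivity)
          _ = _ := by field_simp
      linarith [mul_le_mul_of_nonneg_left e4 hh.le]
  have htel := sum_le_sum hstep
  rw [Finset.sum_range_sub' (fun i => 1 / m i) N] at htel
  have hm0 : 1 / m 0 ≤ 1 := by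
    rw [div_le_one (lt_of_lt_of_le one_pos (hM1 _ (hrange 0 (Nat.zero_le _)).1 (hrange 0 (Nat.zero_le _)).2))]
    exact hM1 _ (hrange 0 (Nat.zero_le _)).1 (hrange 0 (Nat.zero_le _)).2
  have hmN : 0 ≤ 1 / m N :=
    div_nonneg zero_le_one (zero_le_one.trans (hM1 _ (hrange N le_rfl).1 (hrange N le_rfl).2))
  have hsum : ∀ n : ℕ, ∑ i ∈ range n, κ i = h / (1 + η) *
      (n * ((D : ℝ) - 2 * Φ * (1 + η) ^ 2) - (D : ℝ) * (1 + η) * h * (n * (n + 1))) := by
    intro n
    induction n with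
    | zero => simp
    | succ n ih => rw [sum_range_succ, ih]; simp only [κ]; push_cast; ring
  rw [hsum N] at htel
  have hN1 : (1 : ℝ) ≤ η * N := by
    have := hN.1
    rw [div_lt_iff₀ hη] at this
    linarith
  have hfin : p₁ / (1 + η) * ((D : ℝ) * (1 - (1 + η) ^ 2 * p₁) - 2 * Φ * (1 + η) ^ 2)
      ≤ h / (1 + η) * (N * ((D : ℝ) - 2 * Φ * (1 + η) ^ 2)
        - (D : ℝ) * (1 + η) * h * (N * (N + 1))) := by
    rw [div_mul_eq_mul_div, div_mul_eq_mul_div,
      div_le_div_iff_of_pos_right (by linarith : (0 : ℝ) < 1 + η)]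
    rw [← hhN]
    have : 0 ≤ (D : ℝ) * (1 + η) * h * h * N * (η * N - 1) :=
      mul_nonneg (by positivity) (by linarith)
    linarith
  linarith

end Vale.Agent.P165.HighDim
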