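import Vale.Agent.P165.HighDim.Blow
import Vale.Agent.P165.Uniq

/-!
A perturbative criterion for a nonuniqueness phase: a spectral gap of order one, in absolute terms,
together with few closed walks.
-/

open Finset
open scoped unitInterval

namespace Vale.Agent.P165.HighDim

/-- The choice of the two parameters `p < q` and of the radius `r`. -/
lemma params {x c : ℝ} (hc0 : 0 < c) (hc1 : c ≤ 1) (hx20 : 20 < x) :
    ∃ p q r : ℝ, 0 < p ∧ p < q ∧ q < 1 ∧ 1 ≤ r ∧ x - 1 ≤ r ^ 2 ∧ x - c ≤ r + (x - 1) / r ∧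
      q * r ≤ 1 - c / (2 * x) ∧ p * x ≤ 2 ∧ p * (x - 1) = 1 + c / (4 * x) := by
  have hx0 : (0 : ℝ) < x := by linarith
  have hx1 : (0 : ℝ) < x - 1 := by linarith
  set β := c / (2 * x) with hβdef
  have hβ0 : 0 < β := by positivity
  have hβx : β * x = c / 2 := by rw [hβdef]; field_simp
  have hβ1 : β ≤ 1 := by
    rw [hβdef, div_le_one (by positivity)]; linarith
  have hβ2 : β / 2 = c / (4 * x) := by rw [hβdef]; field_simp; ring
  set q := (1 + β) / (x - 1) with hq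
  set p := (1 + β / 2) / (x - 1) with hp
  set γ := 1 - q * (x - c) + q ^ 2 * (x - 1) with hγ
  have hqx : q * (x - 1) = 1 + β := div_mul_cancel₀ _ hx1.ne'
  have hpx : p * (x - 1) = 1 + β / 2 := div_mul_cancel₀ _ hx1.ne'
  have hγx : γ * (x - 1) = c * (1 + β) - β * (x - 2) + β ^ 2 := by
    have : γ * (x - 1) = (x - 1) - (q * (x - 1)) * (x - c) + (q * (x - 1)) ^ 2 := by
      rw [hγ]; ring
    rw [this, hqx]; ring
  have hγ0 : β ≤ γ := by
    refine le_of_mul_le_mul_right ?_ hx1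
    rw [hγx]
    have : 0 ≤ c * β + β ^ 2 := by positivity
    nlinarith
  have hγ1 : γ ≤ 1 / 2 := by
    refine le_of_mul_le_mul_right ?_ hx1
    rw [hγx]
    have h1 : 0 ≤ β * (x - 2) := mul_nonneg hβ0.le (by linarith)
    have h2 : c * (1 + β) ≤ 2 := by nlinarith
    have h3 : β ^ 2 ≤ 1 := pow_le_one₀ hβ0.le hβ1
    linarith
  have hγp : 0 < γ := lt_of_lt_of_le hβ0 hγ0
  have hq0 : 0 < q := div_pos (by linarith) hx1
  have hq1 : q < 1 := (div_lt_one hx1).2 (by linarith)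
  have hq3 : q * (x - 1) ≤ 2 := by rw [hqx]; linarith
  have hp0 : 0 < p := div_pos (by linarith) hx1
  have hpq : p < q := div_lt_div_of_pos_right (by linarith) hx1
  set r := (1 - γ) / q with hr
  have hqr : q * r = 1 - γ := mul_div_cancel₀ _ hq0.ne'
  have hr4 : (x - 1) / 4 ≤ r := by
    rw [hr, le_div_iff₀ hq0]
    linarith
  have hr1 : 1 ≤ r := le_trans (by linarith) hr4
  have hrb : x - 1 ≤ r ^ 2 := by
    nlinarith [mul_le_mul hr4 hr4 (by linarith) (by linarith)]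
  have hr0 : 0 < r := lt_of_lt_of_le one_pos hr1
  have hrl : x - c ≤ r + (x - 1) / r := by
    have h1 : (x - 1) * q ≤ (x - 1) / r := by
      rw [le_div_iff₀ hr0, mul_assoc, hqr]
      exact mul_le_of_le_one_right hx1.le (by linarith)
    have h2 : x - c = r + (x - 1) * q := by
      refine mul_left_cancel₀ hq0.ne' ?_
      rw [mul_add, hqr, hγ]
      ring
    linarith
  refine ⟨p, q, r, hp0, hpq, hq1, hr1, hrb, hrl, by linarith, ?_, by rw [hpx, hβ2]⟩
  have : p ≤ 2 / (x - 1) := (div_le_div_iff_of_pos_right hx1).2 (by linarith)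
  have h2 : p ≤ 1 := by linarith
  nlinarith

/-- The bound on the diagram, as an inequality between real numbers. -/
lemma remainder_le {x c C t A P S y : ℝ} (hc0 : 0 < c) (hx : 1 ≤ x) (hC : 0 ≤ C) (hA : 0 ≤ A)
    (hP : 0 ≤ P) (hS : S = 12 * x ^ 4 / c ^ 2) (hy : x ^ 15 ≤ y) (ht0 : 0 ≤ t) (htx : t * x ≤ 2) :
    3 * t ^ 2 * (C * x) + t ^ 3 * (C * x ^ 2)
      + 3 * t ^ 2 * (A * x ^ 3 * (C / x ^ 2 + P * S ^ 3 / y))
      ≤ (20 * C + 12 * A * (C + P * 1728 / c ^ 6)) / x := by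
  have hx0 : 0 < x := by linarith
  rw [le_div_iff₀ hx0]
  have t1 : t ^ 2 * x ^ 2 ≤ 4 := by
    rw [← mul_pow]; exact (pow_le_pow_left₀ (by positivity) htx 2).trans_eq (by norm_num)
  have t2 : t ^ 3 * x ^ 3 ≤ 8 := by
    rw [← mul_pow]; exact (pow_le_pow_left₀ (by positivity) htx 3).trans_eq (by norm_num)
  have hS0 : 0 ≤ S := by rw [hS]; positivity
  have hrem : x ^ 2 * (P * S ^ 3 / y) ≤ P * 1728 / c ^ 6 := by
    calc x ^ 2 * (P * S ^ 3 / y) ≤ x ^ 2 * (P * S ^ 3 / x ^ 15) :=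
          mul_le_mul_of_nonneg_left
            (div_le_div_of_nonneg_left (by positivity) (by positivity) hy) (sq_nonneg x)
      _ = P * 1728 / c ^ 6 / x := by rw [hS]; field_simp; ring
      _ ≤ _ := div_le_self (by positivity) hx
  have e : (3 * t ^ 2 * (C * x) + t ^ 3 * (C * x ^ 2)
      + 3 * t ^ 2 * (A * x ^ 3 * (C / x ^ 2 + P * S ^ 3 / y))) * x
      = 3 * C * (t ^ 2 * x ^ 2) + C * (t ^ 3 * x ^ 3) + 3 * A * (t ^ 2 * x ^ 2)
        * (C + x ^ 2 * (P * S ^ 3 / y)) := by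
    generalize P * S ^ 3 / y = R
    field_simp
  rw [e]
  have h1 := mul_le_mul_of_nonneg_left t1 (mul_nonneg (by norm_num : (0 : ℝ) ≤ 3) hC)
  have h2 := mul_le_mul_of_nonneg_left t2 hC
  have hy0 : 0 ≤ P * S ^ 3 / y :=
    div_nonneg (by positivity) (le_trans (by positivity) hy)
  have h3 := mul_le_mul (mul_le_mul_of_nonneg_left t1 (mul_nonneg (by norm_num : (0 : ℝ) ≤ 3) hA))
    (add_le_add (le_refl C) hrem) (by positivity) (by positivity)
  linarith

variable {W : Type*} [DecidableEq W] {H : SimpleGraph W} [H.LocallyFinite] {D : ℕ}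

/-- The diagram is of order `1 / D`. -/
lemma small_diag {C c p q r : ℝ} {m : ℕ} (hm : 30 ≤ m) (hC : 0 ≤ C) (hc0 : 0 < c) (hc1 : c ≤ 1)
    (hx : (20 : ℝ) < D) (hD : ∀ x, (H.neighborFinset x).card = D) (hl : FormLe H ((D : ℝ) - c))
    (hwalk : ∀ n x y, n ≤ 2 * m → walkNum H n x y ≤ C * (D : ℝ) ^ (n / 2))
    (hpq : p < q) (hq1 : q < 1) (hr1 : 1 ≤ r) (hrb : (D : ℝ) - 1 ≤ r ^ 2)
    (hrl : (D : ℝ) - c ≤ r + ((D : ℝ) - 1) / r) (hqr : q * r ≤ 1 - c / (2 * D))
    (hpx : p * D ≤ 2) :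
    SmallDiagram H p
      ((20 * C + 12 * ((2 : ℝ) ^ (m + 1)) ^ 3 * (C + 2 ^ m * Real.sqrt C * 1728 / c ^ 6)) / D) := by
  intro t ht0 htp U Ω B hU hΩ hBΩ hNB z hz
  have hx0 : (0 : ℝ) < D := by linarith
  have hD1 : 1 ≤ D := by exact_mod_cast (show (1 : ℝ) ≤ D by linarith)
  have hl0 : 0 ≤ (D : ℝ) - c := by linarith
  have hlD : (D : ℝ) - c ≤ D := by linarith
  have hr0 : 0 < r := by linarith
  have hγ : 0 < c / (2 * (D : ℝ)) := by positivity
  have ht1 : t ≤ 1 := htp.trans (hpq.le.trans hq1.le)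
  have htr : t * r ≤ 1 - c / (2 * D) :=
    (mul_le_mul_of_nonneg_right (htp.trans hpq.le) hr0.le).trans hqr
  have htx : t * D ≤ 2 := (mul_le_mul_of_nonneg_right htp hx0.le).trans hpx
  set S := 12 * (D : ℝ) ^ 4 / c ^ 2 with hS
  have hS1 : 1 ≤ S := by
    rw [hS, le_div_iff₀ (pow_pos hc0 2), one_mul]
    nlinarith [pow_le_one₀ hc0.le hc1 (n := 2),
      one_le_pow₀ (show (1 : ℝ) ≤ D by linarith) (n := 4)]
  have hT : ∀ a b : W → ℝ, (∀ x, 0 ≤ a x) → (∀ x, 0 ≤ b x) →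
      ∑ v ∈ Ω, a v * ∑ y ∈ Ω, tau t U v y * b y ≤ S * (nrm Ω a * nrm Ω b) := by
    intro a b ha hb
    refine (tau_form_le hD hl hl0 hlD hr1 hrb hrl hD1 ht0 ht1 (by linarith) hU Ω ha hb).trans
      (mul_le_mul_of_nonneg_right ?_ (mul_nonneg (Real.sqrt_nonneg _) (Real.sqrt_nonneg _)))
    have h1 : (c / (2 * (D : ℝ))) ^ 2 ≤ (1 - t * r) ^ 2 :=
      pow_le_pow_left₀ (by positivity) (by linarith) 2
    refine (div_le_div_of_nonneg_left (by positivity) (by positivity) h1).trans_eq ?_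
    rw [hS]; field_simp; ring
  have hw3 : walkNum H 3 z z ≤ C * (D : ℝ) := by simpa using hwalk 3 z z (by omega)
  have hw4 : ∀ y, walkNum H 4 y z ≤ C * (D : ℝ) ^ 2 := fun y => by
    simpa using hwalk 4 y z (by omega)
  have hwm : walkNum H (2 * m) z z ≤ C * (D : ℝ) ^ m := by
    simpa using hwalk (2 * m) z z le_rfl
  have hy : (D : ℝ) ^ 15 ≤ Real.sqrt ((D : ℝ) ^ m) := by
    refine Real.le_sqrt_of_sq_le ?_
    rw [← pow_mul]
    exact pow_le_pow_right₀ (by linarith) (by omega)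
  exact (diagram_le hD ht0 ht1 hU hΩ hl hl0 hlD hS1 hT hz hD1 hC hw3 hw4 hwm htx hBΩ hNB).trans
    (remainder_le hc0 (by linarith) hC (by positivity) (by positivity) hS hy ht0 htx)

/-- A small diagram makes the bracket positive. -/
lemma bracket_gt {x c p K : ℝ} (hc0 : 0 < c) (hc1 : c ≤ 1) (hK : 0 ≤ K) (hx20 : 20 < x)
    (hxc : 16 * K + 40 < c * x) (hpx : p * (x - 1) = 1 + c / (4 * x)) :
    1 < p * (x * (1 - p) - 2 * (K / x)) := by
  have hx1 : (0 : ℝ) < x - 1 := by linarith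
  have hx0 : (0 : ℝ) < x := by linarith
  set b := c / (4 * x) with hb
  have hb0 : 0 ≤ b := by positivity
  have hbx : b * x = c / 4 := by rw [hb]; field_simp
  have hb1 : b ≤ 1 := by rw [hb, div_le_one (by positivity)]; linarith
  refine lt_of_mul_lt_mul_right ?_ (sq_nonneg (x - 1))
  have e : p * (x * (1 - p) - 2 * (K / x)) * (x - 1) ^ 2
      = (p * (x - 1)) * x * ((x - 1) - p * (x - 1)) - 2 * (K / x) * ((p * (x - 1)) * (x - 1)) := by
    ring
  rw [e, hpx]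
  have h1 : K / x * ((1 + b) * (x - 1)) ≤ 2 * K := by
    calc K / x * ((1 + b) * (x - 1)) ≤ K / x * (2 * x) :=
          mul_le_mul_of_nonneg_left (mul_le_mul (by linarith) (by linarith) hx1.le (by norm_num))
            (by positivity)
      _ = _ := by field_simp
  have h2 : (1 + b) * x * ((x - 1) - (1 + b))
      = x ^ 2 - 2 * x + c / 4 * x - 3 / 4 * c - b * (c / 4) := by
    have e2 : (1 + b) * x * ((x - 1) - (1 + b))
        = x ^ 2 - 2 * x + (b * x) * x - 3 * (b * x) - b * (b * x) := by ring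
    rw [e2, hbx]; ring
  rw [h2]
  have : b * (c / 4) ≤ 1 := by nlinarith
  nlinarith

/-- Decay of connections below the point where the non-backtracking operator is invertible. -/
lemma conn_decay [Infinite W] {l r q : ℝ} (hD : ∀ x, (H.neighborFinset x).card = D)
    (htr : ∀ x y : W, ∃ φ : H ≃g H, φ x = y) (hl : FormLe H l) (hl0 : 0 ≤ l) (hlD : l ≤ D)
    (hr1 : 1 ≤ r) (hrb : (D : ℝ) - 1 ≤ r ^ 2) (hrl : l ≤ r + ((D : ℝ) - 1) / r) (hD1 : 1 ≤ D)
    (hq0 : 0 ≤ q) (hq1 : q ≤ 1) (hqr : q * r < 1) :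
    ConnDecay H q := by
  intro P v η hη
  set s := Real.sqrt (q * r)
  have hs1 : s < 1 := (Real.sqrt_lt' one_pos).2 (by simpa using hqr)
  have hpos : (0 : ℝ) < 3 * (D : ℝ) ^ 2 / (1 - s) ^ 2 + 1 := by
    have : 0 ≤ 3 * (D : ℝ) ^ 2 / (1 - s) ^ 2 := by positivity
    linarith
  obtain ⟨k, hk⟩ := exists_pow_lt_of_lt_one (div_pos hη hpos) hs1
  obtain ⟨y, hy⟩ := Infinite.exists_notMem_finset (P ∪ P.biUnion fun a => grow H {a} k)
  simp only [mem_union, mem_biUnion, not_or, not_exists, not_and] at hy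
  obtain ⟨φ, hφ⟩ := htr v y
  refine ⟨φ, hφ ▸ hy.1, fun a ha U hU => ?_⟩
  change tau q U a (φ v) ≤ η
  rw [hφ, tau_symm]
  refine (tau_decay hD hl hl0 hlD hr1 hrb hrl hD1 hq0 hq1 hqr hU (hy.2 a ha)).trans ?_
  refine (mul_le_mul_of_nonneg_right (le_add_of_nonneg_right zero_le_one) (pow_nonneg
    (Real.sqrt_nonneg _) k)).trans ?_
  refine (mul_le_mul_of_nonneg_left hk.le hpos.le).trans_eq ?_
  field_simp

universe u

/-- The length `31` makes the remainder of the expansion negligible. -/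
theorem criterion (C c : ℝ) (hC : 0 ≤ C) (hc : 0 < c) :
    ∃ D₀ : ℕ, ∀ (W : Type u) [DecidableEq W] [Infinite W] (H : SimpleGraph W) [H.LocallyFinite]
      (D : ℕ), D₀ ≤ D → H.Connected → (∀ x y : W, ∃ φ : H ≃g H, φ x = y) →
      (∀ x, (H.neighborFinset x).card = D) → FormLe H ((D : ℝ) - c) →
      (∀ n x y, n ≤ 62 → walkNum H n x y ≤ C * (D : ℝ) ^ (n / 2)) → pc H < pu H := by
  obtain ⟨m, hm⟩ : ∃ m : ℕ, m = 31 := ⟨31, rfl⟩
  set c' := min c 1 with hc'
  have hc0 : 0 < c' := lt_min hc one_pos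
  have hc1 : c' ≤ 1 := min_le_right _ _
  set K := 20 * C + 12 * ((2 : ℝ) ^ (m + 1)) ^ 3 * (C + 2 ^ m * Real.sqrt C * 1728 / c' ^ 6)
    with hK
  have hK0 : 0 ≤ K := by rw [hK]; positivity
  obtain ⟨N, hN⟩ := exists_nat_gt (20 + (16 * K + 40) / c')
  refine ⟨N, fun W _ _ H _ D hND hH htr hD hform hwalk => ?_⟩
  have hx : (20 : ℝ) + (16 * K + 40) / c' < D := hN.trans_le (Nat.cast_le.2 hND)
  have hx20 : (20 : ℝ) < D := by
    have : 0 ≤ (16 * K + 40) / c' := by positivity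
    linarith
  have hxc : 16 * K + 40 < c' * D := by
    have := (div_lt_iff₀ hc0).1 (show (16 * K + 40) / c' < D by linarith)
    linarith
  have hD1 : 1 ≤ D := by exact_mod_cast (show (1 : ℝ) ≤ D by linarith)
  have hl : FormLe H ((D : ℝ) - c') := fun Λ f hf => (hform Λ f hf).trans
    (mul_le_mul_of_nonneg_right (by linarith [min_le_left c (1 : ℝ)])
      (sum_nonneg fun _ _ => sq_nonneg _))
  obtain ⟨p, q, r, hp0, hpq, hq1, hr1, hrb, hrl, hqr, hpx, hpx'⟩ := params hc0 hc1 hx20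
  have hdiag : SmallDiagram H p (K / D) :=
    small_diag (by omega) hC hc0 hc1 hx20 hD hl (fun n x y hn => hwalk n x y (by omega))
      hpq hq1 hr1 hrb hrl hqr hpx
  have hpc := pc_le_of_small_diagram hH htr hD hp0 (hpq.trans hq1) (by positivity) hdiag
    (bracket_gt hc0 hc1 hK0 hx20 hxc hpx')
  refine pc_lt_pu_of_decay hH (q := ⟨q, (hp0.trans hpq).le, hq1.le⟩) (hpc.trans_lt hpq)
    (conn_decay hD htr hl (by linarith) (by linarith) hr1 hrb hrl hD1 (hp0.trans hpq).le hq1.le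
      (hqr.trans_lt (by linarith [show 0 < c' / (2 * (D : ℝ)) by positivity])))

end Vale.Agent.P165.HighDim
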