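import Vale.Agent.P165.HighDim.Kernel

/-!
The closed diagram through an edge, with connections avoiding that edge, is small.
-/

open Finset

namespace Vale.Agent.P165.HighDim

variable {W : Type*} [DecidableEq W] {H : SimpleGraph W} [H.LocallyFinite] {p : ℝ}
  {U : Finset (Sym2 W)} {Ω : Finset W}

/-- A row through a middle kernel and a last one. -/
lemma triple (Ω : Finset W) (a L : W → ℝ) (A K : W → W → ℝ) :
    ∑ u ∈ Ω, ∑ v ∈ Ω, ∑ w ∈ Ω, a u * A u v * K v w * L w
      = ∑ w ∈ Ω, (∑ v ∈ Ω, (∑ u ∈ Ω, a u * A u v) * K v w) * L w := by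
  simp only [sum_mul]
  rw [sum_comm]
  conv_lhs => arg 2; ext v; rw [sum_comm]
  rw [sum_comm]

/-- Two adjacency steps and a connection. -/
noncomputable def rem (H : SimpleGraph W) (p : ℝ) (U : Finset (Sym2 W)) (Ω : Finset W) (x y : W) :
    ℝ :=
  ∑ b ∈ Ω, adj H x b * ∑ c ∈ Ω, adj H b c * tau p U c y

omit [H.LocallyFinite] in
lemma act_rem (g : W → ℝ) (y : W) :
    act H p U Ω false (act H p U Ω true (act H p U Ω true g)) y
      = ∑ x ∈ Ω, g x * rem H p U Ω x y := by
  simp only [act, ker, rem, sum_mul, mul_sum]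
  rw [sum_comm]
  conv_lhs => arg 2; ext b; rw [sum_comm]
  rw [sum_comm]
  exact sum_congr rfl fun x _ => sum_congr rfl fun b _ => sum_congr rfl fun c _ => by ring

omit [DecidableEq W] [H.LocallyFinite] in
lemma rem_nonneg (h0 : 0 ≤ p) (h1 : p ≤ 1) [DecidableEq W] (x y : W) : 0 ≤ rem H p U Ω x y :=
  sum_nonneg fun _ _ => mul_nonneg (adj_nonneg H _ _)
    (sum_nonneg fun _ _ => mul_nonneg (adj_nonneg H _ _) (tau_nonneg h0 h1 U _ _))

/-- The adjacency kernel inside an edge set. -/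
noncomputable def adjIn (H : SimpleGraph W) (U : Finset (Sym2 W)) (x y : W) : ℝ :=
  if s(x, y) ∈ U then adj H x y else 0

omit [H.LocallyFinite] in
lemma adjIn_nonneg (U : Finset (Sym2 W)) (x y : W) : 0 ≤ adjIn H U x y := by
  unfold adjIn; split_ifs <;> simp [adj_nonneg]

omit [H.LocallyFinite] in
lemma adjIn_le (U : Finset (Sym2 W)) (x y : W) : adjIn H U x y ≤ adj H x y := by
  unfold adjIn; split_ifs <;> simp [adj_nonneg]

/-- The short part of a connection. -/
noncomputable def near (H : SimpleGraph W) (p : ℝ) (U : Finset (Sym2 W)) (x y : W) : ℝ :=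
  (if x = y then 1 else 0) + p * adjIn H U x y

omit [H.LocallyFinite] in
lemma near_nonneg (h0 : 0 ≤ p) (U : Finset (Sym2 W)) (x y : W) : 0 ≤ near H p U x y :=
  add_nonneg (by split_ifs <;> norm_num) (mul_nonneg h0 (adjIn_nonneg U x y))

omit [H.LocallyFinite] in
lemma near_le_tau (h0 : 0 ≤ p) (h1 : p ≤ 1) {U' : Finset (Sym2 W)} (hU' : U' ⊆ U) (x y : W) :
    near H p U' x y ≤ tau p U x y := by
  classical
  unfold near adjIn
  by_cases hxy : x = y
  · subst hxy
    have : tau p U x x = 1 := by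
      rw [tau, ← pr_true p U]
      exact pr_congr fun S _ => ⟨fun _ => trivial, fun _ => subset_cl _ _ rfl⟩
    simp [this, adj]
  · rw [if_neg hxy, zero_add]
    by_cases he : s(x, y) ∈ U'
    · rw [if_pos he]
      refine (mul_le_of_le_one_right h0 ?_).trans ?_
      · unfold adj; split_ifs <;> norm_num
      · have h := pr_all_open p (singleton_subset_iff.2 (hU' he))
        rw [card_singleton, pow_one] at h
        refine h.symm.le.trans (pr_mono h0 h1 fun S _ hS => ?_)
        exact cl_step (subset_cl _ _ rfl) (singleton_subset_iff.1 hS)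
    · rw [if_neg he, mul_zero]
      exact tau_nonneg h0 h1 U x y

lemma tau_le_near (h0 : 0 ≤ p) (h1 : p ≤ 1) (hU : ↑U ⊆ H.edgeSet)
    (hΩ : ∀ e ∈ U, ∀ x ∈ e, x ∈ Ω) {U' : Finset (Sym2 W)} (hU' : U' ⊆ U) (x : W) {y : W}
    (hy : y ∈ Ω) :
    tau p U' x y ≤ near H p U' x y + p ^ 2 * rem H p U Ω x y := by
  classical
  refine (tau_le_step h0 h1 ((coe_subset.2 hU').trans hU) (fun e he => hΩ e (hU' he)) x y).trans ?_
  rw [near, add_assoc]
  refine add_le_add le_rfl ?_
  rw [pow_two, mul_assoc, ← mul_add]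
  refine mul_le_mul_of_nonneg_left ?_ h0
  have hb : ∀ b, tau p U' b y ≤ (if b = y then 1 else 0)
      + p * ∑ c ∈ Ω, adj H b c * tau p U c y := fun b => by
    refine (tau_mono h0 h1 hU' b y).trans ((tau_le_step h0 h1 hU hΩ b y).trans ?_)
    exact add_le_add le_rfl (mul_le_mul_of_nonneg_left (sum_le_sum fun c _ =>
      mul_le_mul_of_nonneg_right (adjIn_le U b c) (tau_nonneg h0 h1 U c y)) h0)
  refine (sum_le_sum fun b _ => mul_le_mul_of_nonneg_left (hb b) (adjIn_nonneg U' x b)).trans ?_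
  simp only [mul_add, sum_add_distrib, mul_ite, mul_one, mul_zero, sum_ite_eq', if_pos hy]
  refine add_le_add le_rfl ?_
  rw [rem, mul_sum]
  refine sum_le_sum fun b _ => ?_
  rw [mul_left_comm]
  exact mul_le_mul_of_nonneg_left (mul_le_mul_of_nonneg_right (adjIn_le U' x b)
    (sum_nonneg fun _ _ => mul_nonneg (adj_nonneg H _ _) (tau_nonneg h0 h1 U _ _))) h0

omit [H.LocallyFinite] in
/-- The short terms: closed walks of length three or four through the removed edge. -/
lemma short_le (h0 : 0 ≤ p) (U : Finset (Sym2 W)) (z u v w : W) :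
    adj H u v * near H p (U.erase s(u, v)) z u * near H p (U.erase s(u, v)) v w
        * near H p (U.erase s(u, v)) w z
      ≤ p ^ 2 * ((if u = z then 1 else 0) * adj H u v * adj H v w * adj H w z
          + adj H z u * adj H u v * (if v = w then 1 else 0) * adj H w z
          + adj H z u * adj H u v * adj H v w * (if w = z then 1 else 0))
        + p ^ 3 * (adj H z u * adj H u v * adj H v w * adj H w z) := by
  classical
  set U' := U.erase s(u, v)
  have hc : (if z = u then (1 : ℝ) else 0) = if u = z then 1 else 0 := by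
    by_cases h : u = z
    · simp [h]
    · simp [h, Ne.symm h]
  set δ1 : ℝ := if u = z then 1 else 0 with hδ1
  set δ2 : ℝ := if v = w then 1 else 0 with hδ2
  set δ3 : ℝ := if w = z then 1 else 0 with hδ3
  set a := adjIn H U' z u
  set b := adjIn H U' v w
  set c := adjIn H U' w z
  have nδ1 : 0 ≤ δ1 := by rw [hδ1]; split_ifs <;> norm_num
  have nδ2 : 0 ≤ δ2 := by rw [hδ2]; split_ifs <;> norm_num
  have nδ3 : 0 ≤ δ3 := by rw [hδ3]; split_ifs <;> norm_num
  have na := adjIn_nonneg (H := H) U' z u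
  have nb := adjIn_nonneg (H := H) U' v w
  have nc := adjIn_nonneg (H := H) U' w z
  have nA := adj_nonneg H u v
  have z0 : adj H u v * δ1 * δ2 * δ3 = 0 := by
    rw [hδ1, hδ2, hδ3]
    split_ifs with e1 e2 e3 <;> simp
    subst e1 e2 e3
    simp [adj]
  have z1 : adj H u v * δ1 * δ2 * c = 0 := by
    rw [hδ1, hδ2]
    split_ifs with e1 e2 <;> simp
    subst e1 e2
    exact Or.inr (by simp [c, U', adjIn, Sym2.eq_swap])
  have z2 : adj H u v * δ1 * b * δ3 = 0 := by
    rw [hδ1, hδ3]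
    split_ifs with e1 e3 <;> simp
    subst e1 e3
    exact Or.inr (by simp [b, U', adjIn, Sym2.eq_swap])
  have z3 : adj H u v * a * δ2 * δ3 = 0 := by
    rw [hδ2, hδ3]
    split_ifs with e2 e3 <;> simp
    subst e2 e3
    exact Or.inr (by simp [a, U', adjIn, Sym2.eq_swap])
  have la : a ≤ adj H z u := adjIn_le U' z u
  have lb : b ≤ adj H v w := adjIn_le U' v w
  have lc : c ≤ adj H w z := adjIn_le U' w z
  have nzu := adj_nonneg H z u
  have nvw := adj_nonneg H v w
  have t1 : adj H u v * δ1 * b * c ≤ adj H u v * δ1 * adj H v w * adj H w z :=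
    mul_le_mul (mul_le_mul_of_nonneg_left lb (mul_nonneg nA nδ1)) lc nc
      (mul_nonneg (mul_nonneg nA nδ1) nvw)
  have t2 : adj H u v * a * δ2 * c ≤ adj H u v * adj H z u * δ2 * adj H w z :=
    mul_le_mul (mul_le_mul_of_nonneg_right (mul_le_mul_of_nonneg_left la nA) nδ2) lc nc
      (mul_nonneg (mul_nonneg nA nzu) nδ2)
  have t3 : adj H u v * a * b * δ3 ≤ adj H u v * adj H z u * adj H v w * δ3 :=
    mul_le_mul_of_nonneg_right (mul_le_mul (mul_le_mul_of_nonneg_left la nA) lb nb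
      (mul_nonneg nA nzu)) nδ3
  have t4 : adj H u v * a * b * c ≤ adj H u v * adj H z u * adj H v w * adj H w z :=
    mul_le_mul (mul_le_mul (mul_le_mul_of_nonneg_left la nA) lb nb (mul_nonneg nA nzu)) lc nc
      (mul_nonneg (mul_nonneg nA nzu) nvw)
  have e : adj H u v * near H p U' z u * near H p U' v w * near H p U' w z
      = adj H u v * δ1 * δ2 * δ3
        + p * (adj H u v * δ1 * δ2 * c + adj H u v * δ1 * b * δ3 + adj H u v * a * δ2 * δ3)
        + p ^ 2 * (adj H u v * δ1 * b * c + adj H u v * a * δ2 * c + adj H u v * a * b * δ3)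
        + p ^ 3 * (adj H u v * a * b * c) := by
    simp only [near, hc, a, b, c, δ1, δ2, δ3]
    ring
  rw [e, z0, z1, z2, z3]
  have := mul_le_mul_of_nonneg_left (add_le_add (add_le_add t1 t2) t3) (pow_nonneg h0 2)
  have := mul_le_mul_of_nonneg_left t4 (pow_nonneg h0 3)
  linarith

variable {D : ℕ} (hD : ∀ x, (H.neighborFinset x).card = D) (h0 : 0 ≤ p) (h1 : p ≤ 1)
  (hU : ↑U ⊆ H.edgeSet) (hΩ : ∀ e ∈ U, ∀ x ∈ e, x ∈ Ω)
  {l : ℝ} (hl : FormLe H l) (hl0 : 0 ≤ l) (hlD : l ≤ D) {S : ℝ} (hS : 1 ≤ S)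
  (hT : ∀ a b : W → ℝ, (∀ x, 0 ≤ a x) → (∀ x, 0 ≤ b x) →
      ∑ v ∈ Ω, a v * ∑ x ∈ Ω, tau p U v x * b x ≤ S * (nrm Ω a * nrm Ω b))

include hD h0 h1 hU hΩ hl hl0 hlD hS hT in
/-- The diagram bound. -/
theorem diagram_le {C : ℝ} {m : ℕ} {z : W} (hz : z ∈ Ω) (hD1 : 1 ≤ D) (hC0 : 0 ≤ C)
    (hC3 : walkNum H 3 z z ≤ C * (D : ℝ)) (hC4 : ∀ y, walkNum H 4 y z ≤ C * (D : ℝ) ^ 2)
    (hCm : walkNum H (2 * m) z z ≤ C * (D : ℝ) ^ m) (hpD : p * D ≤ 2)
    {B : Finset W} (hB : B ⊆ Ω) (hNB : ∀ u ∈ B, ∀ v ∈ H.neighborFinset u, v ∈ Ω) :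
    ∑ u ∈ B, ∑ v ∈ H.neighborFinset u, ∑ w ∈ Ω,
        tau p (U.erase s(u, v)) z u * tau p (U.erase s(u, v)) v w * tau p (U.erase s(u, v)) w z
      ≤ 3 * p ^ 2 * (C * D) + p ^ 3 * (C * (D : ℝ) ^ 2)
        + 3 * p ^ 2 * (((2 : ℝ) ^ (m + 1)) ^ 3 * (D : ℝ) ^ 3
          * (C / (D : ℝ) ^ 2 + 2 ^ m * Real.sqrt C * S ^ 3 / Real.sqrt ((D : ℝ) ^ m))) := by
  classical
  set δz : W → ℝ := row H p U Ω z 0
  have hδ : ∀ x, δz x = if x = z then 1 else 0 := fun x => rfl
  have hrem : ∀ x y, 0 ≤ rem H p U Ω x y := rem_nonneg h0 h1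
  have hτ : ∀ x y, 0 ≤ tau p U x y := tau_nonneg h0 h1 U
  -- pointwise bound
  set G : W → W → W → ℝ := fun u v w =>
    p ^ 2 * (δz u * adj H u v * adj H v w * adj H w z
      + adj H z u * adj H u v * (if v = w then 1 else 0) * adj H w z
      + adj H z u * adj H u v * adj H v w * δz w)
    + p ^ 3 * (adj H z u * adj H u v * adj H v w * adj H w z)
    + p ^ 2 * (rem H p U Ω z u * adj H u v * tau p U v w * tau p U w z
      + tau p U z u * adj H u v * tau p U v w * rem H p U Ω w z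
      + tau p U z u * adj H u v * rem H p U Ω v w * tau p U w z) with hG
  have hG0 : ∀ u v w, 0 ≤ G u v w := fun u v w => by
    have hz' : ∀ x, 0 ≤ δz x := row_nonneg h0 h1 z 0
    have hI : (0 : ℝ) ≤ if v = w then 1 else 0 := by split_ifs <;> norm_num
    have ha := adj_nonneg H
    simp only [hG]
    have := hrem z u
    have := hrem w z
    have := hrem v w
    have := hτ z u
    have := hτ v w
    have := hτ w z
    have := hz' u
    have := hz' w
    have := ha z u
    have := ha u v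
    have := ha v w
    have := ha w z
    positivity
  have hpt : ∀ u ∈ Ω, ∀ v ∈ H.neighborFinset u, ∀ w ∈ Ω,
      tau p (U.erase s(u, v)) z u * tau p (U.erase s(u, v)) v w * tau p (U.erase s(u, v)) w z
        ≤ G u v w := by
    intro u hu v hv w hw
    set U' := U.erase s(u, v)
    have hsub : U' ⊆ U := erase_subset _ _
    have huv : adj H u v = 1 := by
      rw [adj, if_pos ((SimpleGraph.mem_neighborFinset H u v).1 hv)]
    set a := tau p U' z u
    set b := tau p U' v w
    set c := tau p U' w z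
    set sa := near H p U' z u
    set sb := near H p U' v w
    set sc := near H p U' w z
    set Ra := p ^ 2 * rem H p U Ω z u
    set Rb := p ^ 2 * rem H p U Ω v w
    set Rc := p ^ 2 * rem H p U Ω w z
    have ha : a ≤ sa + Ra := tau_le_near h0 h1 hU hΩ hsub z hu
    have hb : b ≤ sb + Rb := tau_le_near h0 h1 hU hΩ hsub v hw
    have hc : c ≤ sc + Rc := tau_le_near h0 h1 hU hΩ hsub w hz
    have nb : 0 ≤ b := tau_nonneg h0 h1 _ _ _
    have nc : 0 ≤ c := tau_nonneg h0 h1 _ _ _
    have nsa : 0 ≤ sa := near_nonneg h0 _ _ _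
    have nsb : 0 ≤ sb := near_nonneg h0 _ _ _
    have nRa : 0 ≤ Ra := mul_nonneg (sq_nonneg p) (hrem _ _)
    have nRb : 0 ≤ Rb := mul_nonneg (sq_nonneg p) (hrem _ _)
    have nRc : 0 ≤ Rc := mul_nonneg (sq_nonneg p) (hrem _ _)
    have hbt : b ≤ tau p U v w := tau_mono h0 h1 hsub v w
    have hct : c ≤ tau p U w z := tau_mono h0 h1 hsub w z
    have hsat : sa ≤ tau p U z u := near_le_tau h0 h1 hsub z u
    have hsbt : sb ≤ tau p U v w := near_le_tau h0 h1 hsub v w
    have s1 : a * b * c ≤ sa * b * c + Ra * tau p U v w * tau p U w z := by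
      have := mul_le_mul_of_nonneg_right (mul_le_mul_of_nonneg_right ha nb) nc
      have := mul_le_mul (mul_le_mul_of_nonneg_left hbt nRa) hct nc (mul_nonneg nRa (hτ v w))
      linarith
    have s2 : sa * b * c ≤ sa * sb * c + tau p U z u * Rb * tau p U w z := by
      have := mul_le_mul_of_nonneg_right (mul_le_mul_of_nonneg_left hb nsa) nc
      have := mul_le_mul (mul_le_mul_of_nonneg_right hsat nRb) hct nc (mul_nonneg (hτ z u) nRb)
      linarith
    have s3 : sa * sb * c ≤ sa * sb * sc + tau p U z u * tau p U v w * Rc := by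
      have := mul_le_mul_of_nonneg_left hc (mul_nonneg nsa nsb)
      have := mul_le_mul_of_nonneg_right (mul_le_mul hsat hsbt nsb (hτ z u)) nRc
      linarith
    have hshort := short_le (H := H) h0 U z u v w
    rw [huv, one_mul] at hshort
    simp only [hG, hδ, huv, mul_one, Ra, Rb, Rc] at *
    linarith
  refine (sum_le_sum fun u hu => sum_le_sum fun v hv => sum_le_sum fun w hw =>
    hpt u (hB hu) v hv w hw).trans ?_
  have hext : ∑ u ∈ B, ∑ v ∈ H.neighborFinset u, ∑ w ∈ Ω, G u v w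
      ≤ ∑ u ∈ Ω, ∑ v ∈ Ω, ∑ w ∈ Ω, G u v w :=
    (sum_le_sum fun u hu => sum_le_sum_of_subset_of_nonneg (fun v hv => hNB u hu v hv)
      fun v _ _ => sum_nonneg fun w _ => hG0 u v w).trans
      (sum_le_sum_of_subset_of_nonneg hB fun u _ _ =>
        sum_nonneg fun v _ => sum_nonneg fun w _ => hG0 u v w)
  refine hext.trans ?_
  have hrow : ∀ y ∈ Ω, row H p U Ω z 1 y = adj H z y := fun y _ => by
    simp [row, act, ker, hz]
  simp only [hG, sum_add_distrib, ← mul_sum, mul_add]
  -- closed walks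
  have r3 : row H p U Ω z 3 z ≤ C * D := (row_le_walk h0 h1 z 3 z).trans hC3
  have r4 : row H p U Ω z 4 z ≤ C * (D : ℝ) ^ 2 := (row_le_walk h0 h1 z 4 z).trans (hC4 z)
  have q1 : ∑ u ∈ Ω, ∑ v ∈ Ω, ∑ w ∈ Ω, δz u * adj H u v * adj H v w * adj H w z
      = row H p U Ω z 3 z := triple Ω δz (fun w => adj H w z) (adj H) (adj H)
  have q2 : ∑ u ∈ Ω, ∑ v ∈ Ω, ∑ w ∈ Ω,
      adj H z u * adj H u v * (if v = w then 1 else 0) * adj H w z = row H p U Ω z 3 z := by
    rw [triple Ω (fun u => adj H z u) (fun w => adj H w z) (adj H) fun v w => if v = w then 1 else 0]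
    simp only [mul_ite, mul_one, mul_zero, sum_ite_eq']
    show _ = ∑ x ∈ Ω, row H p U Ω z 2 x * adj H x z
    refine sum_congr rfl fun x hx => ?_
    rw [if_pos hx]
    congr 1
    exact sum_congr rfl fun u hu => by rw [hrow u hu]; rfl
  have q3 : ∑ u ∈ Ω, ∑ v ∈ Ω, ∑ w ∈ Ω, adj H z u * adj H u v * adj H v w * δz w
      = row H p U Ω z 3 z := by
    rw [triple Ω (fun u => adj H z u) δz (adj H) (adj H)]
    simp only [hδ, mul_ite, mul_one, mul_zero, sum_ite_eq', if_pos hz]
    refine sum_congr rfl fun v _ => ?_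
    congr 1
    exact sum_congr rfl fun u hu => by rw [hrow u hu]; rfl
  have q4 : ∑ u ∈ Ω, ∑ v ∈ Ω, ∑ w ∈ Ω, adj H z u * adj H u v * adj H v w * adj H w z
      = row H p U Ω z 4 z := by
    rw [triple Ω (fun u => adj H z u) (fun w => adj H w z) (adj H) (adj H)]
    refine sum_congr rfl fun w _ => ?_
    congr 1
    refine sum_congr rfl fun v _ => ?_
    congr 1
    exact sum_congr rfl fun u hu => by rw [hrow u hu]; rfl
  -- remainders
  have hw : ∀ wd : List Bool, wd.count true = 3 → wd.count false = 3 →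
      run H p U Ω wd δz z ≤ ((2 : ℝ) ^ (m + 1)) ^ 3 * (D : ℝ) ^ 3
        * (C / (D : ℝ) ^ 2 + 2 ^ m * Real.sqrt C * S ^ 3 / Real.sqrt ((D : ℝ) ^ m)) := by
    intro wd ht hf
    have h := run_row_le hD h0 h1 hU hΩ hl hl0 hlD hS hT hz hD1 hC0 hC3 hC4 hCm hpD wd 0
      (by omega) (by omega)
    rwa [hf, ht, zero_add] at h
  have hτz : ∀ x ∈ Ω, act H p U Ω false δz x = tau p U z x := fun x _ => by
    simp [act, ker, hδ, hz]
  have w1 : ∑ u ∈ Ω, ∑ v ∈ Ω, ∑ w ∈ Ω,
      rem H p U Ω z u * adj H u v * tau p U v w * tau p U w z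
      = run H p U Ω [true, true, false, true, false, false] δz z := by
    rw [triple Ω (fun u => rem H p U Ω z u) (fun w => tau p U w z) (adj H) (tau p U)]
    refine sum_congr rfl fun w _ => ?_
    congr 1
    refine sum_congr rfl fun v _ => ?_
    congr 1
    refine sum_congr rfl fun u _ => ?_
    rw [act_rem]
    simp [hδ, hz, ker]
  have w2 : ∑ u ∈ Ω, ∑ v ∈ Ω, ∑ w ∈ Ω,
      tau p U z u * adj H u v * tau p U v w * rem H p U Ω w z
      = run H p U Ω [false, true, false, true, true, false] δz z := by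
    rw [triple Ω (fun u => tau p U z u) (fun w => rem H p U Ω w z) (adj H) (tau p U)]
    show _ = act H p U Ω false (act H p U Ω true (act H p U Ω true
      (act H p U Ω false (act H p U Ω true (act H p U Ω false δz))))) z
    rw [act_rem]
    refine sum_congr rfl fun w _ => ?_
    congr 1
    refine sum_congr rfl fun v _ => ?_
    congr 1
    exact sum_congr rfl fun u hu => by rw [hτz u hu]; rfl
  have w3 : ∑ u ∈ Ω, ∑ v ∈ Ω, ∑ w ∈ Ω,
      tau p U z u * adj H u v * rem H p U Ω v w * tau p U w z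
      = run H p U Ω [false, true, true, true, false, false] δz z := by
    rw [triple Ω (fun u => tau p U z u) (fun w => tau p U w z) (adj H) (rem H p U Ω)]
    refine sum_congr rfl fun w _ => ?_
    congr 1
    rw [act_rem]
    refine sum_congr rfl fun v _ => ?_
    congr 1
    exact sum_congr rfl fun u hu => by rw [hτz u hu]; rfl
  rw [q1, q2, q3, q4, w1, w2, w3]
  have hp2 := pow_nonneg h0 2
  have hp3 := pow_nonneg h0 3
  have b1 := hw [true, true, false, true, false, false] (by decide) (by decide)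
  have b2 := hw [false, true, false, true, true, false] (by decide) (by decide)
  have b3 := hw [false, true, true, true, false, false] (by decide) (by decide)
  nlinarith [mul_le_mul_of_nonneg_left r3 hp2, mul_le_mul_of_nonneg_left r4 hp3,
    mul_le_mul_of_nonneg_left (add_le_add (add_le_add b1 b2) b3) hp2]

end Vale.Agent.P165.HighDim
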