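import Vale.Agent.P165.HighDim.Norm

/-!
Products of adjacency and two-point kernels: their diagonal is controlled by return numbers.
-/

open Finset

namespace Vale.Agent.P165.HighDim

variable {W : Type*} [DecidableEq W]

/-- The adjacency kernel. -/
noncomputable def adj (H : SimpleGraph W) (x y : W) : ℝ :=
  open scoped Classical in if H.Adj x y then 1 else 0

omit [DecidableEq W] in
lemma adj_nonneg (H : SimpleGraph W) (x y : W) : 0 ≤ adj H x y := by
  unfold adj; split_ifs <;> norm_num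

omit [DecidableEq W] in
lemma adj_symm (H : SimpleGraph W) (x y : W) : adj H x y = adj H y x := by
  by_cases h : H.Adj x y
  · simp [adj, h, h.symm]
  · have h' : ¬ H.Adj y x := fun h' => h h'.symm
    simp [adj, h, h']

variable (H : SimpleGraph W)

/-- The kernel of a letter: adjacency or connection. -/
noncomputable def ker (p : ℝ) (U : Finset (Sym2 W)) : Bool → W → W → ℝ
  | true => adj H
  | false => tau p U

/-- A kernel applied to a row vector. -/
noncomputable def act (p : ℝ) (U : Finset (Sym2 W)) (Ω : Finset W) (b : Bool) (a : W → ℝ) (y : W) :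
    ℝ :=
  ∑ x ∈ Ω, a x * ker H p U b x y

/-- A word of kernels applied to a row vector. -/
noncomputable def run (p : ℝ) (U : Finset (Sym2 W)) (Ω : Finset W) : List Bool → (W → ℝ) → W → ℝ
  | [], a => a
  | b :: w, a => run p U Ω w (act H p U Ω b a)

/-- The rows of the powers of the adjacency kernel. -/
noncomputable def row (p : ℝ) (U : Finset (Sym2 W)) (Ω : Finset W) (z : W) : ℕ → W → ℝ
  | 0 => fun y => if y = z then 1 else 0
  | n + 1 => act H p U Ω true (row p U Ω z n)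

variable {H} {p : ℝ} {U : Finset (Sym2 W)} {Ω : Finset W}

lemma run_add : ∀ (w : List Bool) (a b : W → ℝ),
    run H p U Ω w (fun x => a x + b x) = fun y => run H p U Ω w a y + run H p U Ω w b y
  | [], _, _ => rfl
  | c :: w, a, b => by
    have : act H p U Ω c (fun x => a x + b x)
        = fun y => act H p U Ω c a y + act H p U Ω c b y := funext fun y => by
      simp only [act, add_mul, sum_add_distrib]
    simp only [run, this, run_add w]

lemma run_smul : ∀ (w : List Bool) (t : ℝ) (a : W → ℝ),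
    run H p U Ω w (fun x => t * a x) = fun y => t * run H p U Ω w a y
  | [], _, _ => rfl
  | c :: w, t, a => by
    have : act H p U Ω c (fun x => t * a x) = fun y => t * act H p U Ω c a y := funext fun y => by
      simp only [act, mul_sum, mul_assoc]
    simp only [run, this, run_smul w]

lemma run_zero : ∀ (w : List Bool), run H p U Ω w (fun _ => 0) = fun _ => 0
  | [] => rfl
  | c :: w => by
    have : act H p U Ω c (fun _ => 0) = fun _ => 0 := funext fun y => by simp [act]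
    simp only [run, this, run_zero w]

lemma run_sum {ι : Type*} (w : List Bool) (s : Finset ι) (t : ι → ℝ) (a : ι → W → ℝ) :
    run H p U Ω w (fun x => ∑ j ∈ s, t j * a j x)
      = fun y => ∑ j ∈ s, t j * run H p U Ω w (a j) y := by
  classical
  induction s using Finset.induction_on with
  | empty => simp [run_zero]
  | insert j s hj ih => simp only [sum_insert hj, run_add, run_smul, ih]

lemma ker_nonneg (h0 : 0 ≤ p) (h1 : p ≤ 1) : ∀ (c : Bool) (x y : W), 0 ≤ ker H p U c x y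
  | true, x, y => adj_nonneg H x y
  | false, x, y => tau_nonneg h0 h1 U x y

lemma act_nonneg (h0 : 0 ≤ p) (h1 : p ≤ 1) (c : Bool) {a : W → ℝ} (ha : ∀ x, 0 ≤ a x) (y : W) :
    0 ≤ act H p U Ω c a y :=
  sum_nonneg fun _ _ => mul_nonneg (ha _) (ker_nonneg h0 h1 c _ _)

lemma run_nonneg (h0 : 0 ≤ p) (h1 : p ≤ 1) :
    ∀ (w : List Bool) {a : W → ℝ}, (∀ x, 0 ≤ a x) → ∀ y, 0 ≤ run H p U Ω w a y
  | [], _, ha, y => ha y
  | c :: w, _, ha, y => run_nonneg h0 h1 w (act_nonneg h0 h1 c ha) y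

lemma run_mono (h0 : 0 ≤ p) (h1 : p ≤ 1) :
    ∀ (w : List Bool) {a b : W → ℝ}, (∀ x ∈ Ω, a x ≤ b x) → ∀ y ∈ Ω,
      run H p U Ω w a y ≤ run H p U Ω w b y
  | [], _, _, hab, y, hy => hab y hy
  | c :: w, _, _, hab, y, hy => run_mono h0 h1 w
      (fun _ _ => sum_le_sum fun x hx =>
        mul_le_mul_of_nonneg_right (hab x hx) (ker_nonneg h0 h1 c _ _)) y hy

lemma row_nonneg (h0 : 0 ≤ p) (h1 : p ≤ 1) (z : W) : ∀ (n : ℕ) (y : W), 0 ≤ row H p U Ω z n y
  | 0, y => by simp only [row]; split_ifs <;> norm_num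
  | n + 1, y => act_nonneg h0 h1 true (row_nonneg h0 h1 z n) y

lemma row_pair (z : W) (hz : z ∈ Ω) : ∀ (i j : ℕ),
    ∑ y ∈ Ω, row H p U Ω z i y * row H p U Ω z j y = row H p U Ω z (i + j) z := by
  intro i j
  induction i generalizing j with
  | zero => simp [row, hz]
  | succ i ih =>
    rw [show i + 1 + j = i + (j + 1) by ring, ← ih (j + 1)]
    simp only [row, act, ker, sum_mul, mul_sum]
    rw [sum_comm]
    refine sum_congr rfl fun x _ => sum_congr rfl fun y _ => ?_
    rw [adj_symm H x y]; ring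

variable [H.LocallyFinite]

lemma sum_adj_le (Ω : Finset W) (y : W) (F : W → ℝ) (hF : ∀ x, 0 ≤ F x) :
    ∑ x ∈ Ω, F x * adj H x y ≤ ∑ x ∈ H.neighborFinset y, F x := by
  classical
  have e : ∀ x, F x * adj H x y = if x ∈ H.neighborFinset y then F x else 0 := fun x => by
    by_cases h : H.Adj x y
    · simp [adj, h, h.symm]
    · have h' : ¬ H.Adj y x := fun h' => h h'.symm
      simp [adj, h, h']
  simp only [e]
  rw [← sum_filter]
  exact sum_le_sum_of_subset_of_nonneg (fun x hx => (mem_filter.1 hx).2) fun x _ _ => hF x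

lemma row_le_walk (h0 : 0 ≤ p) (h1 : p ≤ 1) (z : W) :
    ∀ (n : ℕ) (y : W), row H p U Ω z n y ≤ walkNum H n y z
  | 0, y => by simp [row, walkNum_zero]
  | n + 1, y => by
    rw [walkNum_succ]
    exact (sum_adj_le Ω y _ (row_nonneg h0 h1 z n)).trans
      (sum_le_sum fun x _ => row_le_walk h0 h1 z n x)

variable {D : ℕ} (hD : ∀ x, (H.neighborFinset x).card = D)

include hD in
lemma row_high (h0 : 0 ≤ p) (h1 : p ≤ 1) {C : ℝ} {z : W}
    (hC : ∀ y, walkNum H 4 y z ≤ C * (D : ℝ) ^ 2) :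
    ∀ (j : ℕ) (y : W), row H p U Ω z (j + 4) y ≤ C * (D : ℝ) ^ (j + 2)
  | 0, y => (row_le_walk h0 h1 z 4 y).trans (hC y)
  | j + 1, y => by
    refine (sum_adj_le Ω y _ (row_nonneg h0 h1 z (j + 4))).trans
      ((sum_le_card_nsmul _ _ (C * (D : ℝ) ^ (j + 2)) fun x _ =>
        row_high h0 h1 hC j x).trans_eq ?_)
    rw [hD, nsmul_eq_mul]; ring

/-- One step of a connection, inside a vertex set containing the edges. -/
lemma tau_le_step (h0 : 0 ≤ p) (h1 : p ≤ 1) (hU : ↑U ⊆ H.edgeSet)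
    (hΩ : ∀ e ∈ U, ∀ x ∈ e, x ∈ Ω) (x y : W) :
    tau p U x y ≤ (if x = y then 1 else 0)
      + p * ∑ b ∈ Ω, (if s(x, b) ∈ U then adj H x b else 0) * tau p U b y := by
  classical
  have hnn : 0 ≤ ∑ b ∈ Ω, (if s(x, b) ∈ U then adj H x b else 0) * tau p U b y :=
    sum_nonneg fun b _ => mul_nonneg (by split_ifs <;> simp [adj_nonneg]) (tau_nonneg h0 h1 U b y)
  by_cases hxy : x = y
  · rw [if_pos hxy]
    exact (pr_le_one h0 h1 U _).trans (le_add_of_nonneg_right (mul_nonneg h0 hnn))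
  · rw [if_neg hxy, zero_add]
    refine (tau_step h0 h1 hU hxy).trans ?_
    rw [← mul_sum]
    refine mul_le_mul_of_nonneg_left ?_ h0
    refine le_trans (sum_le_sum fun b hb => ?_) (sum_le_sum_of_subset_of_nonneg ?_ fun b _ _ =>
      mul_nonneg (by split_ifs <;> simp [adj_nonneg]) (tau_nonneg h0 h1 U b y))
    · obtain ⟨hadj, hU'⟩ := mem_filter.1 hb
      rw [if_pos hU', adj, if_pos ((SimpleGraph.mem_neighborFinset H x b).1 hadj), one_mul]
      exact tau_mono h0 h1 (filter_subset _ _) b y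
    · exact fun b hb => hΩ _ (mem_filter.1 hb).2 b (Sym2.mem_mk_right x b)

lemma act_expand (h0 : 0 ≤ p) (h1 : p ≤ 1) (hU : ↑U ⊆ H.edgeSet)
    (hΩ : ∀ e ∈ U, ∀ x ∈ e, x ∈ Ω) {a : W → ℝ} (ha : ∀ x, 0 ≤ a x) {y : W} (hy : y ∈ Ω) :
    act H p U Ω false a y ≤ a y + p * act H p U Ω false (act H p U Ω true a) y := by
  classical
  have h : ∀ x, tau p U x y ≤ (if x = y then 1 else 0) + p * ∑ b ∈ Ω, adj H x b * tau p U b y :=
    fun x => (tau_le_step h0 h1 hU hΩ x y).trans (add_le_add le_rfl (mul_le_mul_of_nonneg_left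
      (sum_le_sum fun b _ => mul_le_mul_of_nonneg_right (by split_ifs <;> simp [adj_nonneg])
        (tau_nonneg h0 h1 U b y)) h0))
  refine (sum_le_sum fun x _ => mul_le_mul_of_nonneg_left (h x) (ha x)).trans (le_of_eq ?_)
  simp only [mul_add, sum_add_distrib, mul_ite, mul_one, mul_zero, sum_ite_eq', if_pos hy]
  congr 1
  simp only [act, ker, mul_sum, sum_mul]
  rw [sum_comm]
  exact sum_congr rfl fun b _ => sum_congr rfl fun x _ => by ring

lemma act_expand_row (h0 : 0 ≤ p) (h1 : p ≤ 1) (hU : ↑U ⊆ H.edgeSet)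
    (hΩ : ∀ e ∈ U, ∀ x ∈ e, x ∈ Ω) (z : W) : ∀ (m k : ℕ), ∀ y ∈ Ω,
    act H p U Ω false (row H p U Ω z k) y
      ≤ ∑ j ∈ range m, p ^ j * row H p U Ω z (k + j) y
        + p ^ m * act H p U Ω false (row H p U Ω z (k + m)) y
  | 0, k, y, _ => by simp
  | m + 1, k, y, hy => by
    refine (act_expand_row h0 h1 hU hΩ z m k y hy).trans ?_
    rw [sum_range_succ, add_assoc]
    refine add_le_add le_rfl ?_
    have h := mul_le_mul_of_nonneg_left
      (act_expand h0 h1 hU hΩ (row_nonneg (H := H) (U := U) (Ω := Ω) h0 h1 z (k + m)) hy) (pow_nonneg h0 m)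
    refine h.trans (le_of_eq ?_)
    rw [show k + (m + 1) = k + m + 1 from rfl]
    simp only [row]
    ring

/-- The numerical bound of a letter. -/
noncomputable def cost (S : ℝ) (D : ℕ) : List Bool → ℝ
  | [] => 1
  | true :: w => D * cost S D w
  | false :: w => S * cost S D w

lemma cost_eq (S : ℝ) (D : ℕ) : ∀ w : List Bool,
    cost S D w = (D : ℝ) ^ w.count true * S ^ w.count false
  | [] => by simp [cost]
  | true :: w => by simp [cost, cost_eq S D w, pow_succ]; ring
  | false :: w => by simp [cost, cost_eq S D w, pow_succ]; ring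

include hD in
lemma nrm_act_adj (h0 : 0 ≤ p) (h1 : p ≤ 1) {l : ℝ} (hl : FormLe H l) (hl0 : 0 ≤ l) (hlD : l ≤ D)
    {a : W → ℝ} (ha : ∀ x, 0 ≤ a x) :
    nrm Ω (act H p U Ω true a) ≤ D * nrm Ω a := by
  classical
  have _ := hD
  set b := act H p U Ω true a
  have hb : ∀ x, 0 ≤ b x := act_nonneg h0 h1 true ha
  set a' : W → ℝ := fun x => if x ∈ Ω then a x else 0 with ha'
  set b' : W → ℝ := fun x => if x ∈ Ω then b x else 0 with hb'
  have h := form_le_norm hl hl0 a' b' (fun x hx => by simp [ha', hx]) (fun x hx => by simp [hb', hx])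
    (Λ := Ω)
  have ea : ∑ x ∈ Ω, a' x ^ 2 = ∑ x ∈ Ω, a x ^ 2 := sum_congr rfl fun x hx => by simp [ha', hx]
  have eb : ∑ x ∈ Ω, b' x ^ 2 = ∑ x ∈ Ω, b x ^ 2 := sum_congr rfl fun x hx => by simp [hb', hx]
  rw [ea, eb] at h
  have h2 : nrm Ω b ^ 2 ≤ form H Ω a' b' := by
    rw [nrm_sq, form_eq_sum _ _ (fun x hx => by simp [ha', hx])]
    have e : ∑ y ∈ Ω, b y ^ 2 = ∑ x ∈ Ω, a x * ∑ y ∈ Ω, adj H x y * b y := by
      simp only [sq, mul_sum]
      rw [sum_comm]
      refine sum_congr rfl fun y _ => ?_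
      show b y * b y = _
      conv_lhs => arg 1; simp only [b, act, ker]
      rw [sum_mul]
      exact sum_congr rfl fun x _ => by ring
    rw [e]
    refine sum_le_sum fun x hx => ?_
    rw [show a' x = a x by simp [ha', hx]]
    refine mul_le_mul_of_nonneg_left ?_ (ha x)
    calc ∑ y ∈ Ω, adj H x y * b y = ∑ y ∈ Ω, b' y * adj H y x :=
          sum_congr rfl fun y hy => by
            simp only [hb', if_pos hy, adj_symm H x y]; ring
      _ ≤ _ := sum_adj_le Ω x b' fun y => by simp only [hb']; split_ifs <;> simp [hb y]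
  have h3 : nrm Ω b ^ 2 ≤ (D : ℝ) * (nrm Ω a * nrm Ω b) :=
    (h2.trans h).trans (mul_le_mul_of_nonneg_right hlD
      (mul_nonneg (Real.sqrt_nonneg _) (Real.sqrt_nonneg _)))
  rcases (Real.sqrt_nonneg (∑ x ∈ Ω, b x ^ 2)).eq_or_lt with h4 | h4
  · rw [nrm, ← h4]; exact mul_nonneg (Nat.cast_nonneg _) (Real.sqrt_nonneg _)
  · refine le_of_mul_le_mul_left ?_ (show 0 < nrm Ω b from h4)
    linarith

omit [H.LocallyFinite] in
lemma nrm_act_tau {S : ℝ} (hS : 0 ≤ S) (h0 : 0 ≤ p) (h1 : p ≤ 1)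
    (hT : ∀ a b : W → ℝ, (∀ x, 0 ≤ a x) → (∀ x, 0 ≤ b x) →
      ∑ v ∈ Ω, a v * ∑ x ∈ Ω, tau p U v x * b x ≤ S * (nrm Ω a * nrm Ω b))
    {a : W → ℝ} (ha : ∀ x, 0 ≤ a x) : nrm Ω (act H p U Ω false a) ≤ S * nrm Ω a := by
  classical
  set b := act H p U Ω false a
  have h := hT a b ha (act_nonneg h0 h1 false ha)
  have e : nrm Ω b ^ 2 = ∑ v ∈ Ω, a v * ∑ x ∈ Ω, tau p U v x * b x := by
    rw [nrm_sq]
    simp only [sq, mul_sum]
    rw [sum_comm]
    refine sum_congr rfl fun y _ => ?_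
    show b y * b y = _
    conv_lhs => arg 1; simp only [b, act, ker]
    rw [sum_mul]
    exact sum_congr rfl fun x _ => by ring
  rcases (Real.sqrt_nonneg (∑ x ∈ Ω, b x ^ 2)).eq_or_lt with h4 | h4
  · rw [nrm, ← h4]; exact mul_nonneg hS (Real.sqrt_nonneg _)
  · refine le_of_mul_le_mul_left ?_ (show 0 < nrm Ω b from h4)
    linarith

section Bound

variable (h0 : 0 ≤ p) (h1 : p ≤ 1) (hU : ↑U ⊆ H.edgeSet) (hΩ : ∀ e ∈ U, ∀ x ∈ e, x ∈ Ω)
  {l : ℝ} (hl : FormLe H l) (hl0 : 0 ≤ l) (hlD : l ≤ D) {S : ℝ} (hS : 1 ≤ S)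
  (hT : ∀ a b : W → ℝ, (∀ x, 0 ≤ a x) → (∀ x, 0 ≤ b x) →
      ∑ v ∈ Ω, a v * ∑ x ∈ Ω, tau p U v x * b x ≤ S * (nrm Ω a * nrm Ω b))

include hD h0 h1 hl hl0 hlD hS hT in
lemma nrm_run : ∀ (w : List Bool) {a : W → ℝ}, (∀ x, 0 ≤ a x) →
    nrm Ω (run H p U Ω w a) ≤ cost S D w * nrm Ω a
  | [], a, _ => by simp [run, cost]
  | true :: w, a, ha => by
    refine (nrm_run w (act_nonneg h0 h1 true ha)).trans ?_
    refine (mul_le_mul_of_nonneg_left (nrm_act_adj hD h0 h1 hl hl0 hlD ha) ?_).trans_eq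
      (by simp only [cost]; ring)
    rw [cost_eq]; positivity
  | false :: w, a, ha => by
    refine (nrm_run w (act_nonneg h0 h1 false ha)).trans ?_
    refine (mul_le_mul_of_nonneg_left (nrm_act_tau (by linarith) h0 h1 hT ha) ?_).trans_eq
      (by simp only [cost]; ring)
    rw [cost_eq]; positivity

include hD h0 h1 hl hl0 hlD in
lemma nrm_row {C : ℝ} {m : ℕ} {z : W} (hz : z ∈ Ω)
    (hC : walkNum H (2 * m) z z ≤ C * (D : ℝ) ^ m) :
    ∀ k, nrm Ω (row H p U Ω z (k + m)) ≤ (D : ℝ) ^ k * Real.sqrt (C * (D : ℝ) ^ m)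
  | 0 => by
    simp only [zero_add, pow_zero, one_mul, nrm]
    refine Real.sqrt_le_sqrt ?_
    simp only [sq]
    rw [row_pair z hz, ← two_mul]
    exact (row_le_walk h0 h1 z (2 * m) z).trans hC
  | k + 1 => by
    rw [show k + 1 + m = k + m + 1 by ring]
    refine (nrm_act_adj hD h0 h1 hl hl0 hlD (row_nonneg h0 h1 z (k + m))).trans ?_
    refine (mul_le_mul_of_nonneg_left (nrm_row hz hC k) (Nat.cast_nonneg D)).trans_eq ?_
    ring

include hD h0 h1 hU hΩ hl hl0 hlD hS hT in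
/-- The diagonal of a word with at most three connection letters. -/
theorem run_row_le {C : ℝ} {m : ℕ} {z : W} (hz : z ∈ Ω) (hD1 : 1 ≤ D) (hC0 : 0 ≤ C)
    (hC3 : walkNum H 3 z z ≤ C * (D : ℝ)) (hC4 : ∀ y, walkNum H 4 y z ≤ C * (D : ℝ) ^ 2)
    (hCm : walkNum H (2 * m) z z ≤ C * (D : ℝ) ^ m) (hpD : p * D ≤ 2) :
    ∀ (w : List Bool) (k : ℕ), 3 ≤ k + w.count true → w.count false ≤ 3 →
      run H p U Ω w (row H p U Ω z k) z ≤ (2 ^ (m + 1)) ^ w.count false
        * (D : ℝ) ^ (k + w.count true)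
        * (C / (D : ℝ) ^ 2 + 2 ^ m * Real.sqrt C * S ^ 3 / Real.sqrt ((D : ℝ) ^ m)) := by
  have hDpos : (0 : ℝ) < D := by exact_mod_cast hD1
  set R := 2 ^ m * Real.sqrt C * S ^ 3 / Real.sqrt ((D : ℝ) ^ m) with hR
  have hR0 : 0 ≤ R := by
    have : (0 : ℝ) ≤ S := le_trans zero_le_one hS
    rw [hR]; positivity
  set B := C / (D : ℝ) ^ 2 + R
  have hB0 : 0 ≤ B := by positivity
  intro w
  induction w with
  | nil =>
    intro k hk _
    simp only [List.count_nil, add_zero, pow_zero, one_mul, run] at hk ⊢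
    have h : row H p U Ω z k z ≤ C * (D : ℝ) ^ k / (D : ℝ) ^ 2 := by
      rw [le_div_iff₀ (pow_pos hDpos 2)]
      rcases Nat.eq_or_lt_of_le hk with rfl | hk4
      · refine (mul_le_mul_of_nonneg_right ((row_le_walk h0 h1 z 3 z).trans hC3)
          (sq_nonneg _)).trans_eq ?_
        ring
      · obtain ⟨j, rfl⟩ : ∃ j, k = j + 4 := ⟨k - 4, by omega⟩
        refine (mul_le_mul_of_nonneg_right (row_high hD h0 h1 hC4 j z) (sq_nonneg _)).trans_eq ?_
        rw [mul_assoc, ← pow_add]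
    refine h.trans ?_
    rw [mul_add, mul_div_assoc']
    exact le_add_of_le_of_nonneg (le_of_eq (by ring)) (mul_nonneg (pow_nonneg hDpos.le _) hR0)
  | cons c w ih =>
    intro k hk hf
    cases c
    · simp only [List.count_cons_self, List.count_cons_of_ne (by decide : (false : Bool) ≠ true),
        run] at hk hf ⊢
      set τ := w.count false
      set α := w.count true
      refine (run_mono h0 h1 w (fun y hy => act_expand_row h0 h1 hU hΩ z m k y hy) z hz).trans ?_
      rw [run_add, run_sum, run_smul]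
      have hG : (1 : ℝ) ≤ 2 ^ (m + 1) := one_le_pow₀ one_le_two
      have hX : 0 ≤ (2 ^ (m + 1)) ^ τ * (D : ℝ) ^ (k + α) * B := by positivity
      have h1' : ∑ j ∈ range m, p ^ j * run H p U Ω w (row H p U Ω z (k + j)) z
          ≤ (2 ^ m - 1) * ((2 ^ (m + 1)) ^ τ * (D : ℝ) ^ (k + α) * B) := by
        have e : ∑ j ∈ range m, (2 : ℝ) ^ j = 2 ^ m - 1 := by
          have := geom_sum_mul (2 : ℝ) m
          linarith
        rw [← e, sum_mul]
        refine sum_le_sum fun j _ => ?_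
        refine (mul_le_mul_of_nonneg_left (ih (k + j) (by omega) (by omega))
          (pow_nonneg h0 j)).trans ?_
        have e2 : p ^ j * ((2 ^ (m + 1)) ^ τ * (D : ℝ) ^ (k + j + α) * B)
            = (p * D) ^ j * ((2 ^ (m + 1)) ^ τ * (D : ℝ) ^ (k + α) * B) := by
          rw [mul_pow, show k + j + α = k + α + j by ring, pow_add _ (k + α) j]; ring
        rw [e2]
        exact mul_le_mul_of_nonneg_right
          (pow_le_pow_left₀ (mul_nonneg h0 hDpos.le) hpD j) hX
      have hrow := row_nonneg (H := H) (U := U) (Ω := Ω) h0 h1 z (k + m)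
      have h2 : run H p U Ω w (act H p U Ω false (row H p U Ω z (k + m))) z
          ≤ cost S D w * (S * ((D : ℝ) ^ k * Real.sqrt (C * (D : ℝ) ^ m))) := by
        refine le_trans (Real.le_sqrt_of_sq_le (single_le_sum (f := fun y =>
          run H p U Ω w (act H p U Ω false (row H p U Ω z (k + m))) y ^ 2)
            (fun y _ => sq_nonneg _) hz)) ?_
        refine (nrm_run hD h0 h1 hl hl0 hlD hS hT w (act_nonneg h0 h1 false hrow)).trans ?_
        refine mul_le_mul_of_nonneg_left ((nrm_act_tau (by linarith) h0 h1 hT hrow).trans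
          (mul_le_mul_of_nonneg_left (nrm_row hD h0 h1 hl hl0 hlD hz hCm k) (by linarith))) ?_
        rw [cost_eq]; positivity
      have h3 : p ^ m * run H p U Ω w (act H p U Ω false (row H p U Ω z (k + m))) z
          ≤ (2 ^ (m + 1)) ^ τ * (D : ℝ) ^ (k + α) * B := by
        refine (mul_le_mul_of_nonneg_left h2 (pow_nonneg h0 m)).trans ?_
        rw [cost_eq, show (w.count true) = α from rfl, show (w.count false) = τ from rfl,
          Real.sqrt_mul hC0, pow_add (D : ℝ) k α]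
        set q := Real.sqrt ((D : ℝ) ^ m)
        have hq : 0 < q := Real.sqrt_pos.2 (pow_pos hDpos m)
        have hq2 : q * q = (D : ℝ) ^ m := Real.mul_self_sqrt (pow_nonneg hDpos.le m)
        have e : p ^ m * ((D : ℝ) ^ α * S ^ τ * (S * ((D : ℝ) ^ k * (Real.sqrt C * q))))
            = (D : ℝ) ^ k * (D : ℝ) ^ α * ((p * D) ^ m * Real.sqrt C * S ^ (τ + 1) / q) := by
          rw [mul_pow, ← hq2]; field_simp; ring
        rw [e]
        have hS3 : S ^ (τ + 1) ≤ S ^ 3 := pow_le_pow_right₀ hS (by omega)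
        have hpm : (p * D) ^ m ≤ 2 ^ m := pow_le_pow_left₀ (mul_nonneg h0 hDpos.le) hpD m
        have : (p * D) ^ m * Real.sqrt C * S ^ (τ + 1) / q ≤ B := by
          refine le_add_of_nonneg_of_le (by positivity) ?_
          rw [hR]
          refine div_le_div_of_nonneg_right ?_ hq.le
          have : (0 : ℝ) ≤ S ^ (τ + 1) := pow_nonneg (le_trans zero_le_one hS) _
          exact mul_le_mul (mul_le_mul_of_nonneg_right hpm (Real.sqrt_nonneg _)) hS3 this
            (by positivity)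
        refine (mul_le_mul_of_nonneg_left this (by positivity)).trans ?_
        rw [mul_assoc ((2 ^ (m + 1) : ℝ) ^ τ)]
        exact le_mul_of_one_le_left (by positivity) (one_le_pow₀ hG)
      refine (add_le_add h1' h3).trans ?_
      have e : (2 ^ (m + 1) : ℝ) ^ (τ + 1) * (D : ℝ) ^ (k + α) * B
          = 2 ^ m * 2 * ((2 ^ (m + 1)) ^ τ * (D : ℝ) ^ (k + α) * B) := by
        rw [pow_succ ((2 : ℝ) ^ (m + 1)) τ, pow_succ (2 : ℝ) m]; ring
      rw [e]
      nlinarith [one_le_pow₀ (one_le_two : (1 : ℝ) ≤ 2) (n := m)]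
    · simp only [List.count_cons_self, List.count_cons_of_ne (by decide : (true : Bool) ≠ false),
        run] at hk hf ⊢
      have h := ih (k + 1) (by omega) hf
      rw [show k + 1 + w.count true = k + (w.count true + 1) by ring] at h
      exact h

end Bound

end Vale.Agent.P165.HighDim
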