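import Vale.Agent.P165.HighDim.NB
import Vale.Agent.P165.Power

/-!
Box products: the adjacency form and the number of walks.
-/

open Finset

namespace Vale.Agent.P165.HighDim

variable {k : ℕ} {U : Fin k → Type*} [∀ i, DecidableEq (U i)] {G : ∀ i, SimpleGraph (U i)}
  [∀ i, (G i).LocallyFinite]

lemma sum_neighbor (x : ∀ i, U i) (F : (∀ i, U i) → ℝ) :
    ∑ y ∈ (boxProduct G).neighborFinset x, F y
      = ∑ i, ∑ z ∈ (G i).neighborFinset (x i), F (Function.update x i z) := by
  rw [neighborFinset_power, moves, sum_image (moves_injOn x), sum_sigma]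

/-- Only the direction `i`. -/
noncomputable def only (G : ∀ j, SimpleGraph (U j)) (i : Fin k) (j : Fin k) : SimpleGraph (U j) :=
  if j = i then G j else ⊥

noncomputable instance onlyLF (i j : Fin k) : (only G i j).LocallyFinite := fun v => by
  classical
  refine Fintype.ofFinset (if j = i then (G j).neighborFinset v else ∅) fun w => ?_
  by_cases h : j = i <;> simp [only, h, SimpleGraph.mem_neighborFinset]

omit [∀ i, DecidableEq (U i)] in
lemma only_self (i : Fin k) (v : U i) :
    (only G i i).neighborFinset v = (G i).neighborFinset v := by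
  ext w; rw [SimpleGraph.mem_neighborFinset, SimpleGraph.mem_neighborFinset]; simp [only]

omit [∀ i, DecidableEq (U i)] in
lemma only_ne {i j : Fin k} (h : j ≠ i) (v : U j) : (only G i j).neighborFinset v = ∅ := by
  ext w; rw [SimpleGraph.mem_neighborFinset]; simp [only, h]

variable {d : Fin k → ℕ} (hd : ∀ i v, ((G i).neighborFinset v).card = d i)

include hd in
/-- One direction of a product, seen through its edge isoperimetric constant. -/
lemma form_dir (i : Fin k) {h l : ℝ} (hh : 0 ≤ h) (hl : 0 ≤ l) (hl2 : (d i : ℝ) ^ 2 - h ^ 2 ≤ l ^ 2)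
    (hiso : ∀ B : Finset (U i), h * B.card ≤ ((bdry (G i) B).card : ℝ))
    (Λ : Finset (∀ j, U j)) (f : (∀ j, U j) → ℝ) (hf : ∀ x, x ∉ Λ → f x = 0) :
    |∑ x ∈ Λ, f x * ∑ z ∈ (G i).neighborFinset (x i), f (Function.update x i z)|
      ≤ l * ∑ x ∈ Λ, f x ^ 2 := by
  classical
  set d' : Fin k → ℕ := fun j => if j = i then d i else 0 with hd'
  have hd'' : ∀ j v, ((only G i j).neighborFinset v).card = d' j := by
    intro j v
    by_cases h : j = i
    · subst h; simp [hd', only_self, hd]
    · simp [hd', only_ne h, h]
  have hsum : ∑ j, d' j = d i := by simp [hd']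
  have hb : ∀ B : Finset (U i), bdry (only G i i) B = bdry (G i) B := fun B => by
    ext w; rw [mem_bdry, mem_bdry]; simp [only]
  have hiso' : ∀ A : Finset (∀ j, U j),
      h * A.card ≤ ∑ x ∈ A, (((boxProduct (only G i)).neighborFinset x \ A).card : ℝ) := by
    intro A
    have := product_iso (G := only G i) (h := h) {i} (fun j hj B => by
      obtain rfl := mem_singleton.1 hj
      rw [hb]; exact hiso B) A
    simpa using this
  have h1 := form_le (H := boxProduct (only G i)) hiso' (D := d i)
    (fun x => (card_neighbor_power hd'' x).trans hsum) (Λ := Λ) f hf hl hl2 hh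
  have e : form (boxProduct (only G i)) Λ f f
      = ∑ x ∈ Λ, f x * ∑ z ∈ (G i).neighborFinset (x i), f (Function.update x i z) := by
    simp only [form, ← mul_sum]
    rw [sum_hull (fun x => f x * ∑ y ∈ (boxProduct (only G i)).neighborFinset x, f y)
      fun x hx => by simp [hf x hx]]
    refine sum_congr rfl fun x _ => ?_
    rw [sum_neighbor, sum_eq_single i (fun j _ hj => by simp [only_ne hj]) (by simp), only_self]
  rwa [e] at h1

include hd in
/-- A single expanding factor lowers the norm of a product. -/
lemma formLe_product (i₀ : Fin k) {h l : ℝ} (hh : 0 ≤ h) (hl : 0 ≤ l)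
    (hl2 : (d i₀ : ℝ) ^ 2 - h ^ 2 ≤ l ^ 2)
    (hiso : ∀ B : Finset (U i₀), h * B.card ≤ ((bdry (G i₀) B).card : ℝ)) :
    FormLe (boxProduct G) (((∑ i, d i : ℕ) : ℝ) - d i₀ + l) := by
  classical
  intro Λ f hf
  have e : form (boxProduct G) Λ f f
      = ∑ i, ∑ x ∈ Λ, f x * ∑ z ∈ (G i).neighborFinset (x i), f (Function.update x i z) := by
    simp only [form, ← mul_sum]
    rw [sum_hull (fun x => f x * ∑ y ∈ (boxProduct G).neighborFinset x, f y)
      fun x hx => by simp [hf x hx]]
    simp only [sum_neighbor, mul_sum]
    rw [sum_comm]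
  rw [e]
  refine (abs_sum_le_sum_abs _ _).trans ?_
  rw [← add_sum_erase univ _ (mem_univ i₀), Nat.cast_sum, ← add_sum_erase univ _ (mem_univ i₀)]
  refine (add_le_add (form_dir hd i₀ hh hl hl2 hiso Λ f hf) (sum_le_sum fun i _ =>
    form_dir hd i (h := 0) le_rfl (Nat.cast_nonneg (d i)) (by simp)
      (fun B => by simp) Λ f hf)).trans_eq ?_
  rw [← sum_mul]
  ring

/-- The coordinates at which two tuples differ. -/
noncomputable def diffSet (x y : ∀ i, U i) : Finset (Fin k) := univ.filter fun i => x i ≠ y i

include hd in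
/-- Walks in a product mostly undo their steps. -/
lemma walkNum_product {Δ : ℕ} (hΔ : ∀ i, d i ≤ Δ) (hD : 1 ≤ ∑ i, d i) :
    ∀ (n : ℕ) (x y : ∀ i, U i),
      (n < (diffSet x y).card → walkNum (boxProduct G) n x y = 0) ∧
      walkNum (boxProduct G) n x y ≤ (((n : ℝ) + 1) * (Δ + 1)) ^ n
        * ((∑ i, d i : ℕ) : ℝ) ^ ((n - (diffSet x y).card) / 2) := by
  classical
  set D : ℝ := ((∑ i, d i : ℕ) : ℝ) with hDdef
  have hD1 : (1 : ℝ) ≤ D := by rw [hDdef]; exact_mod_cast hD
  intro n
  induction n with
  | zero =>
    intro x y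
    rw [walkNum_zero]
    refine ⟨fun h => if_neg fun e => ?_, ?_⟩
    · subst e; simp [diffSet] at h
    · simp only [pow_zero, Nat.zero_sub, Nat.zero_div, mul_one]
      split_ifs <;> norm_num
  | succ n ih =>
    intro x y
    set S := diffSet x y with hS
    set s := S.card
    have hin : ∀ i ∈ S, ∀ z, s ≤ (diffSet (Function.update x i z) y).card + 1 := fun i hi z => by
      have : S.erase i ⊆ diffSet (Function.update x i z) y := fun j hj => by
        obtain ⟨hji, hj⟩ := mem_erase.1 hj
        refine mem_filter.2 ⟨mem_univ j, ?_⟩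
        rw [Function.update_of_ne hji]
        exact (mem_filter.1 hj).2
      have := card_le_card this
      rw [card_erase_of_mem hi] at this
      omega
    have hout : ∀ i, i ∉ S → ∀ z ∈ (G i).neighborFinset (x i),
        (diffSet (Function.update x i z) y).card = s + 1 := fun i hi z hz => by
      have hxy : x i = y i := by
        by_contra h
        exact hi (mem_filter.2 ⟨mem_univ i, h⟩)
      have hzy : z ≠ y i := hxy ▸ ((SimpleGraph.mem_neighborFinset (G i) (x i) z).1 hz).ne'
      have : diffSet (Function.update x i z) y = insert i S := by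
        ext j
        by_cases hj : j = i
        · subst hj; simp [diffSet, hzy]
        · simp [diffSet, hS, hj]
      rw [this, card_insert_of_notMem hi]
    constructor
    · intro hlt
      rw [walkNum_succ, sum_neighbor]
      refine sum_eq_zero fun i _ => sum_eq_zero fun z hz => (ih _ y).1 ?_
      by_cases hi : i ∈ S
      · have := hin i hi z; omega
      · rw [hout i hi z hz]; omega
    · by_cases hlt : n + 1 < s
      · have : walkNum (boxProduct G) (n + 1) x y = 0 := by
          rw [walkNum_succ, sum_neighbor]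
          refine sum_eq_zero fun i _ => sum_eq_zero fun z hz => (ih _ y).1 ?_
          by_cases hi : i ∈ S
          · have := hin i hi z; omega
          · rw [hout i hi z hz]; omega
        rw [this]; positivity
      push Not at hlt
      set K := (((n : ℝ) + 1) * (Δ + 1)) ^ n
      have hK : 0 ≤ K := by positivity
      set E := (n + 1 - s) / 2
      rw [walkNum_succ, sum_neighbor, ← sum_filter_add_sum_filter_not univ (fun i => i ∈ S)]
      have h1 : ∑ i ∈ univ.filter (fun i => i ∈ S), ∑ z ∈ (G i).neighborFinset (x i),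
          walkNum (boxProduct G) n (Function.update x i z) y ≤ ((n : ℝ) + 1) * Δ * (K * D ^ E) := by
        refine (sum_le_card_nsmul _ _ ((Δ : ℝ) * (K * D ^ E)) fun i hi => ?_).trans ?_
        · refine (sum_le_card_nsmul _ _ (K * D ^ E) fun z _ => ?_).trans ?_
          · refine ((ih _ y).2).trans (mul_le_mul_of_nonneg_left ?_ hK)
            refine pow_le_pow_right₀ hD1 (Nat.div_le_div_right ?_)
            have := hin i (mem_filter.1 hi).2 z
            omega
          · rw [nsmul_eq_mul, hd]
            exact mul_le_mul_of_nonneg_right (Nat.cast_le.2 (hΔ i)) (by positivity)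
        · rw [nsmul_eq_mul, mul_assoc ((n : ℝ) + 1)]
          refine mul_le_mul_of_nonneg_right ?_ (by positivity)
          rw [filter_univ_mem]
          exact_mod_cast hlt
      have h2 : ∑ i ∈ univ.filter (fun i => i ∉ S), ∑ z ∈ (G i).neighborFinset (x i),
          walkNum (boxProduct G) n (Function.update x i z) y ≤ K * D ^ E := by
        by_cases hn : n < s + 1
        · refine le_trans (le_of_eq (sum_eq_zero fun i hi => sum_eq_zero fun z hz =>
            (ih _ y).1 ?_)) (by positivity)
          rw [hout i (mem_filter.1 hi).2 z hz]; exact hn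
        push Not at hn
        have hE : (n - (s + 1)) / 2 + 1 = E := by omega
        calc _ ≤ ∑ i ∈ univ.filter (fun i => i ∉ S), (d i : ℝ) * (K * D ^ ((n - (s + 1)) / 2)) := by
              refine sum_le_sum fun i hi => (sum_le_card_nsmul _ _ (K * D ^ ((n - (s + 1)) / 2))
                fun z hz => ?_).trans_eq (by rw [nsmul_eq_mul, hd])
              have := (ih (Function.update x i z) y).2
              rwa [hout i (mem_filter.1 hi).2 z hz] at this
          _ ≤ D * (K * D ^ ((n - (s + 1)) / 2)) := by
              rw [← sum_mul, hDdef, Nat.cast_sum]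
              refine mul_le_mul_of_nonneg_right (sum_le_sum_of_subset_of_nonneg (filter_subset _ _)
                fun i _ _ => Nat.cast_nonneg _) (by positivity)
          _ = K * D ^ E := by rw [← hE, pow_succ]; ring
      refine (add_le_add h1 h2).trans ?_
      rw [show ((n : ℝ) + 1) * Δ * (K * D ^ E) + K * D ^ E
        = (((n : ℝ) + 1) * Δ + 1) * K * D ^ E by ring]
      refine mul_le_mul_of_nonneg_right ?_ (by positivity)
      rw [pow_succ', Nat.cast_add, Nat.cast_one]
      refine mul_le_mul ?_ (pow_le_pow_left₀ (by positivity) ?_ n) hK (by positivity)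
      · nlinarith [(Nat.cast_nonneg Δ : (0 : ℝ) ≤ Δ), (Nat.cast_nonneg n : (0 : ℝ) ≤ n)]
      · nlinarith [(Nat.cast_nonneg Δ : (0 : ℝ) ≤ Δ)]

end Vale.Agent.P165.HighDim
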