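import Vale.Agent.P165.HighDim.Criterion
import Vale.Agent.P165.HighDim.Product
import Vale.Agent.P165.Main

/-!
One nonamenable factor among many transitive factors of bounded degree gives a nonuniqueness phase.
-/

open Finset

namespace Vale.Agent.P165.HighDim

universe u v

/-- The criterion, with the two hypotheses written out. -/
theorem gap_and_few_walks (C c : ℝ) (hC : 0 ≤ C) (hc : 0 < c) :
    ∃ D₀ : ℕ, ∀ (W : Type u) [DecidableEq W] [Infinite W] (H : SimpleGraph W) [H.LocallyFinite]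
      (D : ℕ), D₀ ≤ D → H.Connected → (∀ x y : W, ∃ φ : H ≃g H, φ x = y) →
      (∀ x, (H.neighborFinset x).card = D) →
      (∀ (Λ : Finset W) (f : W → ℝ), (∀ x, x ∉ Λ → f x = 0) →
        |∑ x ∈ Λ, f x * ∑ y ∈ H.neighborFinset x, f y| ≤ ((D : ℝ) - c) * ∑ x ∈ Λ, f x ^ 2) →
      (∀ n x y, n ≤ 62 → ((H.finsetWalkLength n x y).card : ℝ) ≤ C * (D : ℝ) ^ (n / 2)) →
      pc H < pu H := by
  obtain ⟨D₀, h⟩ := criterion.{u} C c hC hc
  refine ⟨D₀, fun W _ _ H _ D hD hH htr hreg hform hwalk => h W H D hD hH htr hreg ?_ hwalk⟩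
  intro Λ f hf
  have e : form H Λ f f = ∑ x ∈ Λ, f x * ∑ y ∈ H.neighborFinset x, f y := by
    simp only [form, ← mul_sum]
    exact sum_hull (fun x => f x * ∑ y ∈ H.neighborFinset x, f y) fun x hx => by simp [hf x hx]
  rw [e]
  exact hform Λ f hf

/-- One expanding factor among many transitive factors of bounded degree. -/
theorem one_factor_pc_lt_pu (Δ : ℕ) (h : ℝ) (hh : 0 < h) :
    ∃ K : ℕ, ∀ k : ℕ, K ≤ k → ∀ (U : Fin k → Type v) (G : ∀ i, SimpleGraph (U i)) (d : Fin k → ℕ),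
      (∀ i, (G i).Connected ∧ Regular (G i) (d i) ∧ 1 ≤ d i ∧ d i ≤ Δ ∧
        ∀ x y : U i, ∃ φ : G i ≃g G i, φ x = y) →
      (∃ i, IsoAtLeast (G i) h) →
      (boxProduct G).Connected ∧ Infinite (∀ i, U i) ∧ Regular (boxProduct G) (∑ i, d i) ∧
        (∀ x y : ∀ i, U i, ∃ φ : boxProduct G ≃g boxProduct G, φ x = y) ∧
        Nonamenable (boxProduct G) ∧ pc (boxProduct G) < pu (boxProduct G) := by
  classical
  set Δ₁ := max Δ 1 with hΔ₁
  have hΔ1 : (1 : ℝ) ≤ Δ₁ := Nat.one_le_cast.2 (le_max_right _ _)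
  set h' := min h 1 with hh'
  have hh0 : 0 < h' := lt_min hh one_pos
  have hh1 : h' ≤ 1 := min_le_right _ _
  set c := h' ^ 2 / (2 * (Δ₁ : ℝ)) with hcdef
  have hc : 0 < c := by positivity
  set C := ((63 : ℝ) * (Δ₁ + 1)) ^ 62 with hC
  obtain ⟨D₀, hD₀⟩ := criterion.{v} C c (by positivity) hc
  refine ⟨max D₀ 1, fun k hk U G d hG hex => ?_⟩
  obtain ⟨i₀, hi₀⟩ := hex
  letI : ∀ i, (G i).LocallyFinite := fun i v => ((hG i).2.1 v).1.fintype
  have hd : ∀ i v, ((G i).neighborFinset v).card = d i := fun i v => by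
    rw [← ((hG i).2.1 v).2, Set.ncard_eq_toFinset_card']
    rfl
  have hconn : ∀ i, (G i).Connected := fun i => (hG i).1
  have hiso : ∀ B : Finset (U i₀), h' * B.card ≤ ((bdry (G i₀) B).card : ℝ) := by
    intro B
    rcases B.eq_empty_or_nonempty with rfl | hB
    · simp
    refine (mul_le_mul_of_nonneg_right (min_le_left h 1) (Nat.cast_nonneg _)).trans ?_
    have := hi₀ ↑B B.finite_toSet (coe_nonempty.2 hB)
    rwa [outerBoundary_finset, Set.ncard_coe_finset, Set.ncard_coe_finset] at this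
  haveI hinf₀ : Infinite (U i₀) := by
    by_contra hfin
    rw [not_infinite_iff_finite] at hfin
    haveI := (hconn i₀).nonempty
    have := hi₀ Set.univ Set.finite_univ Set.univ_nonempty
    have he : outerBoundary (G i₀) (Set.univ : Set (U i₀)) = ∅ := by ext w; simp [outerBoundary]
    rw [he, Set.ncard_empty, Nat.cast_zero, Set.ncard_univ] at this
    have hpos : (0 : ℝ) < Nat.card (U i₀) := Nat.cast_pos.2 Nat.card_pos
    nlinarith
  haveI hinf : Infinite (∀ i, U i) :=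
    Infinite.of_injective _ (Function.update_injective (fun i => (hconn i).nonempty.some) i₀)
  set D := ∑ i, d i with hD
  have hDk : k ≤ D := by
    calc k = ∑ _i : Fin k, 1 := by simp
      _ ≤ D := sum_le_sum fun i _ => (hG i).2.2.1
  have hD1 : 1 ≤ D := ((le_max_right _ _).trans hk).trans hDk
  have hH := connected_product hconn
  have htr : ∀ x y : ∀ i, U i, ∃ φ : boxProduct G ≃g boxProduct G, φ x = y := by
    intro x y
    choose φ hφ using fun i => (hG i).2.2.2.2 (x i) (y i)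
    refine ⟨⟨Equiv.piCongrRight fun i => (φ i).toEquiv, fun {a b} => ?_⟩, funext fun i => hφ i⟩
    simp only [boxProduct, Equiv.piCongrRight_apply, Pi.map_apply]
    exact exists_congr fun i => and_congr (φ i).map_adj_iff
      (forall₂_congr fun j _ => (φ j).injective.eq_iff)
  refine ⟨hH, hinf, fun x => ⟨Set.toFinite _, ?_⟩, htr,
    nonamenable_product hd (by omega) hh0 (T := {i₀}) (by simp) (fun i hi B => by
      obtain rfl := mem_singleton.1 hi
      exact hiso B), ?_⟩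
  · rw [Set.ncard_eq_toFinset_card', hD, ← card_neighbor_power hd x]
    rfl
  have hdle : ∀ i, d i ≤ Δ₁ := fun i => (hG i).2.2.2.1.trans (le_max_left _ _)
  have hd0 : (d i₀ : ℝ) ≤ Δ₁ := Nat.cast_le.2 (hdle i₀)
  have hd1 : (1 : ℝ) ≤ d i₀ := Nat.one_le_cast.2 (hG i₀).2.2.1
  have hcd : 2 * (d i₀ : ℝ) * c ≤ h' ^ 2 := by
    calc 2 * (d i₀ : ℝ) * c ≤ 2 * (Δ₁ : ℝ) * c := by gcongr
      _ = h' ^ 2 := by rw [hcdef]; field_simp
  have hc1 : c ≤ 1 := by nlinarith
  have hform : FormLe (boxProduct G) ((D : ℝ) - c) := by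
    have := formLe_product hd i₀ (h := h') (l := (d i₀ : ℝ) - c) hh0.le (by linarith)
      (by nlinarith [sq_nonneg c]) hiso
    rwa [show ((D : ℕ) : ℝ) - d i₀ + ((d i₀ : ℝ) - c) = (D : ℝ) - c by ring] at this
  refine hD₀ (∀ i, U i) (boxProduct G) D (((le_max_left _ _).trans hk).trans hDk) hH htr
    (fun x => card_neighbor_power hd x) hform fun n x y hn => ?_
  refine ((walkNum_product hd hdle hD1 n x y).2).trans ?_
  refine mul_le_mul ?_ (pow_le_pow_right₀ (Nat.one_le_cast.2 hD1) (Nat.div_le_div_right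
    (Nat.sub_le _ _))) (by positivity) (by positivity)
  calc (((n : ℝ) + 1) * ((Δ₁ : ℝ) + 1)) ^ n ≤ ((63 : ℝ) * ((Δ₁ : ℝ) + 1)) ^ n := by
        gcongr
        have : (n : ℝ) ≤ 62 := by exact_mod_cast hn
        linarith
    _ ≤ C := pow_le_pow_right₀ (by nlinarith) hn

end Vale.Agent.P165.HighDim
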