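import Vale.Agent.P165.BK
import Vale.Agent.P165.Spectral

/-!
Two-point functions as bilinear forms: connections are dominated by non-backtracking walks, whose
generating function is bounded on square summable functions a little beyond `1 / (D - 1)`.
-/

open Finset

namespace Vale.Agent.P165.HighDim

variable {W : Type*} [DecidableEq W] (H : SimpleGraph W) [H.LocallyFinite]

/-- The adjacency form is bounded by `l`. -/
def FormLe (l : ℝ) : Prop :=
  ∀ (Λ : Finset W) (f : W → ℝ), (∀ x, x ∉ Λ → f x = 0) →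
    |form H Λ f f| ≤ l * ∑ x ∈ Λ, f x ^ 2

variable {H}

/-- The two-point function in a finite edge set. -/
noncomputable def tau (p : ℝ) (U : Finset (Sym2 W)) (x y : W) : ℝ := pr p U (conn x y)

lemma conn_symm {x y : W} {S : Finset (Sym2 W)} (h : conn x y S) : conn y x S :=
  mem_cl_single.2 (mem_cl_single.1 h).symm

lemma tau_symm (p : ℝ) (U : Finset (Sym2 W)) (x y : W) : tau p U x y = tau p U y x :=
  pr_congr fun _ _ => ⟨conn_symm, conn_symm⟩

lemma tau_nonneg {p : ℝ} (h0 : 0 ≤ p) (h1 : p ≤ 1) (U : Finset (Sym2 W)) (x y : W) :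
    0 ≤ tau p U x y :=
  pr_nonneg h0 h1 _ _

lemma tau_mono {p : ℝ} (h0 : 0 ≤ p) (h1 : p ≤ 1) {U U' : Finset (Sym2 W)} (h : U ⊆ U') (x y : W) :
    tau p U x y ≤ tau p U' x y :=
  pr_mono_set h0 h1 h fun _ _ hST h => cl_mono subset_rfl hST h

/-- The edges not at `v`. -/
def away (v : W) (U : Finset (Sym2 W)) : Finset (Sym2 W) := U.filter fun e => v ∉ e

/-- The first step of a connection. -/
lemma tau_step {p : ℝ} (h0 : 0 ≤ p) (h1 : p ≤ 1) {U : Finset (Sym2 W)} (hU : ↑U ⊆ H.edgeSet)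
    {v x : W} (hvx : v ≠ x) :
    tau p U v x ≤ ∑ w ∈ (H.neighborFinset v).filter (fun w => s(v, w) ∈ U),
      p * tau p (away v U) w x := by
  classical
  refine (pr_le_sum h0 h1 ((H.neighborFinset v).filter fun w => s(v, w) ∈ U)
    (fun w S => s(v, w) ∈ S ∧ conn w x (S ∩ away v U)) ?_).trans
      (le_of_eq (sum_congr rfl fun w hw => ?_))
  · intro S hS h
    obtain ⟨q⟩ := mem_cl_single.1 h
    set π := q.bypass
    have hπ : π.IsPath := q.bypass_isPath
    clear_value π
    cases π with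
    | nil => exact absurd rfl hvx
    | @cons a w b hadj r =>
      rw [SimpleGraph.Walk.cons_isPath_iff] at hπ
      simp only [SimpleGraph.fromEdgeSet_adj, mem_coe] at hadj
      refine ⟨w, mem_filter.2 ⟨?_, hS hadj.1⟩, hadj.1, mem_cl_of_walk r fun e he => ?_⟩
      · simpa using (hU (mem_coe.2 (hS hadj.1)) : H.Adj v w)
      · have heS : e ∈ S := by
          have := r.edges_subset_edgeSet he
          rw [SimpleGraph.edgeSet_fromEdgeSet] at this
          exact this.1
        refine mem_inter.2 ⟨heS, mem_filter.2 ⟨hS heS, fun hve => hπ.2 ?_⟩⟩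
        exact r.mem_support_of_mem_edges he hve
  · obtain ⟨-, hwU⟩ := mem_filter.1 hw
    have hd : Disjoint ({s(v, w)} : Finset (Sym2 W)) (away v U) := by
      simp [away]
    have hsub : {s(v, w)} ∪ away v U ⊆ U :=
      union_subset (singleton_subset_iff.2 hwU) (filter_subset _ _)
    have h := pr_split p hd (fun T => {s(v, w)} ⊆ T) (conn w x)
    rw [pr_all_open p (Finset.Subset.refl _), card_singleton, pow_one] at h
    rw [tau, ← h, ← pr_marginal p hsub
      (fun S => {s(v, w)} ⊆ S ∩ {s(v, w)} ∧ conn w x (S ∩ away v U))]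
    refine pr_congr fun S _ => ?_
    have e1 : S ∩ ({s(v, w)} ∪ away v U) ∩ away v U = S ∩ away v U := by
      ext a; simp +contextual
    rw [e1]
    simp [singleton_subset_iff]

variable (H)

/-- Weighted non-backtracking walks from `v`, not starting towards `u`. -/
noncomputable def nbW (f : W → ℝ) : ℕ → W → W → ℝ
  | 0, _, v => f v
  | n + 1, u, v => ∑ w ∈ (H.neighborFinset v).erase u, nbW f n v w

/-- Weighted non-backtracking walks of length `n`. -/
noncomputable def nbX (f : W → ℝ) : ℕ → W → ℝ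
  | 0 => f
  | n + 1 => fun v => ∑ w ∈ H.neighborFinset v, nbW H f n v w

variable {H}

lemma nbW_nonneg {f : W → ℝ} (hf : ∀ x, 0 ≤ f x) : ∀ (n : ℕ) u v, 0 ≤ nbW H f n u v
  | 0, _, v => hf v
  | n + 1, _, _ => sum_nonneg fun _ _ => nbW_nonneg hf n _ _

lemma nbX_nonneg {f : W → ℝ} (hf : ∀ x, 0 ≤ f x) : ∀ (n : ℕ) v, 0 ≤ nbX H f n v
  | 0, v => hf v
  | n + 1, _ => sum_nonneg fun _ _ => nbW_nonneg hf n _ _

lemma sum_tau_ite (p : ℝ) (U : Finset (Sym2 W)) (Λ : Finset W) {f : W → ℝ}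
    (hfs : ∀ x, x ∉ Λ → f x = 0) (v : W) :
    ∑ x ∈ Λ, tau p U v x * f x = f v + ∑ x ∈ Λ.erase v, tau p U v x * f x := by
  have hvv : tau p U v v = 1 := by
    rw [tau, ← pr_true p U]
    exact pr_congr fun S _ => ⟨fun _ => trivial, fun _ => subset_cl _ _ rfl⟩
  by_cases h : v ∈ Λ
  · rw [← add_sum_erase Λ _ h, hvv, one_mul]
  · rw [hfs v h, zero_add, erase_eq_of_notMem h]

lemma tau_rec {p : ℝ} (h0 : 0 ≤ p) (h1 : p ≤ 1) {U : Finset (Sym2 W)} (hU : ↑U ⊆ H.edgeSet)
    (Λ : Finset W) {f : W → ℝ} (hf : ∀ x, 0 ≤ f x) (hfs : ∀ x, x ∉ Λ → f x = 0) (v : W) :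
    ∑ x ∈ Λ, tau p U v x * f x ≤ f v + p * ∑ w ∈ (H.neighborFinset v).filter (fun w => s(v, w) ∈ U),
      ∑ x ∈ Λ, tau p (away v U) w x * f x := by
  rw [sum_tau_ite p U Λ hfs v]
  refine add_le_add le_rfl ?_
  refine (sum_le_sum fun x hx => mul_le_mul_of_nonneg_right
    (tau_step h0 h1 hU (ne_of_mem_erase hx).symm) (hf x)).trans ?_
  rw [mul_sum]
  simp only [sum_mul]
  rw [sum_comm]
  refine sum_le_sum fun w _ => ?_
  rw [mul_sum]
  refine (sum_le_sum_of_subset_of_nonneg (erase_subset v Λ) fun x _ _ =>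
    mul_nonneg (mul_nonneg h0 (tau_nonneg h0 h1 _ _ _)) (hf x)).trans
      (le_of_eq (sum_congr rfl fun x _ => mul_assoc _ _ _))

lemma tau_le_nbW {p : ℝ} (h0 : 0 ≤ p) (h1 : p ≤ 1) (Λ : Finset W) {f : W → ℝ}
    (hf : ∀ x, 0 ≤ f x) (hfs : ∀ x, x ∉ Λ → f x = 0) :
    ∀ (N : ℕ) (U : Finset (Sym2 W)), U.card ≤ N → ↑U ⊆ H.edgeSet → ∀ u v, s(v, u) ∉ U →
      ∑ x ∈ Λ, tau p U v x * f x ≤ ∑ n ∈ range (N + 1), p ^ n * nbW H f n u v := by
  classical
  intro N
  induction N with
  | zero =>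
    intro U hN hU u v _
    refine (tau_rec h0 h1 hU Λ hf hfs v).trans (le_of_eq ?_)
    simp [card_eq_zero.1 (Nat.le_zero.1 hN), nbW]
  | succ N ih =>
    intro U hN hU u v huv
    refine (tau_rec h0 h1 hU Λ hf hfs v).trans ?_
    rw [sum_range_succ' _ (N + 1), pow_zero, one_mul, add_comm (∑ n ∈ range (N + 1), _)]
    refine add_le_add le_rfl ?_
    have : ∑ n ∈ range (N + 1), p ^ (n + 1) * nbW H f (n + 1) u v
        = p * ∑ w ∈ (H.neighborFinset v).erase u, ∑ n ∈ range (N + 1), p ^ n * nbW H f n v w := by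
      simp only [nbW, mul_sum]
      rw [sum_comm]
      exact sum_congr rfl fun w _ => sum_congr rfl fun n _ => by ring
    rw [this]
    refine mul_le_mul_of_nonneg_left ?_ h0
    refine (sum_le_sum fun w hw => ?_).trans (sum_le_sum_of_subset_of_nonneg ?_ fun w _ _ =>
      sum_nonneg fun n _ => mul_nonneg (pow_nonneg h0 n) (nbW_nonneg hf n _ _))
    · obtain ⟨-, hwU⟩ := mem_filter.1 hw
      refine ih (away v U) ?_ ((coe_subset.2 (filter_subset _ _)).trans hU) v w ?_
      · have : away v U ⊂ U := filter_ssubset.2 ⟨s(v, w), hwU, by simp⟩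
        have := card_lt_card this
        omega
      · simp [away]
    · intro w hw
      obtain ⟨hadj, hwU⟩ := mem_filter.1 hw
      exact mem_erase.2 ⟨fun e => huv (e ▸ hwU), hadj⟩

/-- Connections are dominated by non-backtracking walks. -/
theorem tau_le_nbX {p : ℝ} (h0 : 0 ≤ p) (h1 : p ≤ 1) {U : Finset (Sym2 W)} (hU : ↑U ⊆ H.edgeSet)
    (Λ : Finset W) {f : W → ℝ} (hf : ∀ x, 0 ≤ f x) (hfs : ∀ x, x ∉ Λ → f x = 0) (v : W) :
    ∑ x ∈ Λ, tau p U v x * f x ≤ ∑ n ∈ range (U.card + 2), p ^ n * nbX H f n v := by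
  classical
  refine (tau_rec h0 h1 hU Λ hf hfs v).trans ?_
  rw [sum_range_succ' _ (U.card + 1), pow_zero, one_mul, add_comm (∑ n ∈ range (U.card + 1), _)]
  refine add_le_add le_rfl ?_
  have : ∑ n ∈ range (U.card + 1), p ^ (n + 1) * nbX H f (n + 1) v
      = p * ∑ w ∈ H.neighborFinset v, ∑ n ∈ range (U.card + 1), p ^ n * nbW H f n v w := by
    simp only [nbX, mul_sum]
    rw [sum_comm]
    exact sum_congr rfl fun w _ => sum_congr rfl fun n _ => by ring
  rw [this]
  refine mul_le_mul_of_nonneg_left ?_ h0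
  refine (sum_le_sum fun w hw => ?_).trans (sum_le_sum_of_subset_of_nonneg (filter_subset _ _)
    fun w _ _ => sum_nonneg fun n _ => mul_nonneg (pow_nonneg h0 n) (nbW_nonneg hf n _ _))
  exact tau_le_nbW h0 h1 Λ hf hfs U.card (away v U) (card_le_card (filter_subset _ _))
    ((coe_subset.2 (filter_subset _ _)).trans hU) v w (by simp [away])

variable {D : ℕ} (hD : ∀ x, (H.neighborFinset x).card = D)

lemma nbW_succ_add (f : W → ℝ) (n : ℕ) {u v : W} (h : H.Adj u v) :
    nbX H f (n + 1) v = nbW H f (n + 1) u v + nbW H f n v u := by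
  simp only [nbX, nbW]
  rw [← add_sum_erase _ _ ((SimpleGraph.mem_neighborFinset H v u).2 h.symm), add_comm]

include hD in
/-- The recursion of non-backtracking walks. -/
lemma nbX_rec (f : W → ℝ) (n : ℕ) (u : W) :
    ∑ v ∈ H.neighborFinset u, nbX H f (n + 2) v
      = nbX H f (n + 3) u + ((D : ℝ) - 1) * nbX H f (n + 1) u := by
  rw [sum_congr rfl fun v hv => nbW_succ_add f (n + 1) ((SimpleGraph.mem_neighborFinset H u v).1 hv),
    sum_add_distrib]
  congr 1
  have e : ∀ v ∈ H.neighborFinset u,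
      nbW H f (n + 1) v u = nbX H f (n + 1) u - nbW H f n u v := fun v hv => by
    rw [nbW_succ_add f n (u := v) ((SimpleGraph.mem_neighborFinset H u v).1 hv).symm]
    ring
  rw [sum_congr rfl e, sum_sub_distrib, sum_const, hD, nsmul_eq_mul]
  simp only [nbX]
  ring

include hD in
lemma nbX_two (f : W → ℝ) (u : W) :
    nbX H f 2 u = ∑ v ∈ H.neighborFinset u, nbX H f 1 v - D * f u := by
  rw [sum_congr rfl fun v hv => nbW_succ_add f 0 ((SimpleGraph.mem_neighborFinset H u v).1 hv),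
    sum_add_distrib]
  simp only [nbX, nbW, sum_const, hD, nsmul_eq_mul]
  ring

lemma form_bilin_le' {l : ℝ} (hl : FormLe H l) {Λ : Finset W} (a b : W → ℝ)
    (ha : ∀ x, x ∉ Λ → a x = 0) (hb : ∀ x, x ∉ Λ → b x = 0) :
    2 * form H Λ a b ≤ l * (∑ x ∈ Λ, a x ^ 2 + ∑ x ∈ Λ, b x ^ 2) := by
  classical
  have hsym : form H Λ b a = form H Λ a b := by
    rw [form, sum_swap (fun x y => b x * a y) (fun x y hy => by simp [ha y hy]), form,
      sum_hull (fun x => ∑ y ∈ H.neighborFinset x, a x * b y) (fun x hx => by simp [ha x hx])]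
    exact sum_congr rfl fun x _ => sum_congr rfl fun y _ => mul_comm _ _
  have h1 := (abs_le.1 (hl Λ (fun x => a x + b x) (fun x hx => by simp [ha x hx, hb x hx]))).2
  have h2 := (abs_le.1 (hl Λ (fun x => a x - b x) (fun x hx => by simp [ha x hx, hb x hx]))).1
  have e1 : form H Λ (fun x => a x + b x) (fun x => a x + b x)
      = form H Λ a a + form H Λ a b + form H Λ b a + form H Λ b b := by
    simp only [form, ← sum_add_distrib]
    exact sum_congr rfl fun x _ => sum_congr rfl fun y _ => by ring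
  have e2 : form H Λ (fun x => a x - b x) (fun x => a x - b x)
      = form H Λ a a - form H Λ a b - form H Λ b a + form H Λ b b := by
    simp only [form, ← sum_add_distrib, ← sum_sub_distrib]
    exact sum_congr rfl fun x _ => sum_congr rfl fun y _ => by ring
  simp only [add_sq, sub_sq, sum_add_distrib, sum_sub_distrib, mul_assoc, ← mul_sum] at h1 h2
  rw [e1] at h1
  rw [e2] at h2
  nlinarith

lemma form_le_norm {l : ℝ} (hl : FormLe H l) (hl0 : 0 ≤ l) {Λ : Finset W} (a b : W → ℝ)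
    (ha : ∀ x, x ∉ Λ → a x = 0) (hb : ∀ x, x ∉ Λ → b x = 0) :
    form H Λ a b ≤ l * (Real.sqrt (∑ x ∈ Λ, a x ^ 2) * Real.sqrt (∑ x ∈ Λ, b x ^ 2)) := by
  classical
  set A := Real.sqrt (∑ x ∈ Λ, a x ^ 2) with hA
  set B := Real.sqrt (∑ x ∈ Λ, b x ^ 2) with hB
  have hA2 : A ^ 2 = ∑ x ∈ Λ, a x ^ 2 := Real.sq_sqrt (sum_nonneg fun x _ => sq_nonneg _)
  have hB2 : B ^ 2 = ∑ x ∈ Λ, b x ^ 2 := Real.sq_sqrt (sum_nonneg fun x _ => sq_nonneg _)
  have hform : ∀ s t : ℝ, form H Λ (fun x => s * a x) (fun x => t * b x)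
      = s * t * form H Λ a b := fun s t => by
    simp only [form, mul_sum]
    exact sum_congr rfl fun x _ => sum_congr rfl fun y _ => by ring
  have h := form_bilin_le' hl (Λ := Λ) (fun x => B * a x) (fun x => A * b x)
    (fun x hx => by simp [ha x hx]) (fun x hx => by simp [hb x hx])
  simp only [mul_pow, ← mul_sum, ← hA2, ← hB2, hform] at h
  rcases (mul_nonneg (Real.sqrt_nonneg _) (Real.sqrt_nonneg _) : 0 ≤ A * B).eq_or_lt with h0 | h0
  · rw [← h0, mul_zero]
    rcases mul_eq_zero.1 h0.symm with hz | hz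
    · have : ∀ x, a x = 0 := fun x => by
        by_cases hx : x ∈ Λ
        · have := (sum_eq_zero_iff_of_nonneg fun y _ => sq_nonneg (a y)).1
            (hA2.symm.trans (by rw [hz]; ring)) x hx
          simpa using this
        · exact ha x hx
      simp [form, this]
    · have : ∀ x, b x = 0 := fun x => by
        by_cases hx : x ∈ Λ
        · have := (sum_eq_zero_iff_of_nonneg fun y _ => sq_nonneg (b y)).1
            (hB2.symm.trans (by rw [hz]; ring)) x hx
          simpa using this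
        · exact hb x hx
      simp [form, this]
  · refine le_of_mul_le_mul_left ?_ h0
    nlinarith

end Vale.Agent.P165.HighDim
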