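import Vale.Agent.P165.HighDim.NB

/-!
The non-backtracking resolvent: the Casoratian of the three-term recursion is a geometric sequence.
-/

open Finset

namespace Vale.Agent.P165.HighDim

variable {W : Type*} [DecidableEq W] {H : SimpleGraph W} [H.LocallyFinite]

/-- Iterated hulls. -/
noncomputable def grow (H : SimpleGraph W) [H.LocallyFinite] (Λ : Finset W) : ℕ → Finset W
  | 0 => Λ
  | n + 1 => hull H (grow H Λ n)

lemma grow_mono (Λ : Finset W) : Monotone (grow H Λ) :=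
  monotone_nat_of_le_succ fun _ => subset_union_left

lemma nb_supp {Λ : Finset W} {f : W → ℝ} (hfs : ∀ x, x ∉ Λ → f x = 0) :
    ∀ (n : ℕ) (u v : W), v ∉ grow H Λ n → nbW H f n u v = 0
  | 0, _, v, h => hfs v h
  | n + 1, u, v, h => by
    refine sum_eq_zero fun w hw => nb_supp hfs n v w fun hw' => h ?_
    exact mem_union_right _ (mem_biUnion.2 ⟨w, hw',
      (SimpleGraph.mem_neighborFinset H w v).2
        ((SimpleGraph.mem_neighborFinset H v w).1 (mem_of_mem_erase hw)).symm⟩)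

lemma nbX_supp {Λ : Finset W} {f : W → ℝ} (hfs : ∀ x, x ∉ Λ → f x = 0) :
    ∀ (n : ℕ) (v : W), v ∉ grow H Λ n → nbX H f n v = 0
  | 0, v, h => hfs v h
  | n + 1, v, h => by
    refine sum_eq_zero fun w hw => nb_supp hfs n v w fun hw' => h ?_
    exact mem_union_right _ (mem_biUnion.2 ⟨w, hw',
      (SimpleGraph.mem_neighborFinset H w v).2 ((SimpleGraph.mem_neighborFinset H v w).1 hw).symm⟩)

lemma form_eq_sum {Λ : Finset W} (a b : W → ℝ) (ha : ∀ x, x ∉ Λ → a x = 0) :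
    form H Λ a b = ∑ x ∈ Λ, a x * ∑ y ∈ H.neighborFinset x, b y := by
  simp only [form, ← mul_sum]
  exact sum_hull _ fun x hx => by simp [ha x hx]

lemma form_comm {Λ : Finset W} (a b : W → ℝ) (ha : ∀ x, x ∉ Λ → a x = 0)
    (hb : ∀ x, x ∉ Λ → b x = 0) : form H Λ a b = form H Λ b a := by
  rw [form_eq_sum b a hb, form, sum_swap (fun x y => a x * b y) (fun x y hy => by simp [hb y hy])]
  exact sum_congr rfl fun x _ => by rw [mul_sum]; exact sum_congr rfl fun y _ => mul_comm _ _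

/-- The length of a function on a finite set. -/
noncomputable def nrm (Λ : Finset W) (a : W → ℝ) : ℝ := Real.sqrt (∑ x ∈ Λ, a x ^ 2)

omit [DecidableEq W] in
lemma nrm_sq (Λ : Finset W) (a : W → ℝ) : nrm Λ a ^ 2 = ∑ x ∈ Λ, a x ^ 2 :=
  Real.sq_sqrt (sum_nonneg fun _ _ => sq_nonneg _)

omit [DecidableEq W] in
lemma nrm_eq {Λ Λ' : Finset W} (h : Λ ⊆ Λ') {a : W → ℝ} (ha : ∀ x, x ∉ Λ → a x = 0) :
    nrm Λ' a = nrm Λ a := by
  rw [nrm, nrm, sum_subset h fun x _ hx => by simp [ha x hx]]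

variable {D : ℕ} (hD : ∀ x, (H.neighborFinset x).card = D) {l : ℝ} (hl : FormLe H l)
  (hl0 : 0 ≤ l) (hlD : l ≤ D)
  {r : ℝ} (hr1 : 1 ≤ r) (hrb : (D : ℝ) - 1 ≤ r ^ 2) (hrl : l ≤ r + ((D : ℝ) - 1) / r)

include hD hl hl0 hlD hr1 hrb hrl in
/-- Growth of non-backtracking walks in mean square. -/
theorem nrm_nbX_le (hD1 : 1 ≤ D) {Λ₀ : Finset W} {f : W → ℝ} (hf : ∀ x, 0 ≤ f x)
    (hfs : ∀ x, x ∉ Λ₀ → f x = 0) (n : ℕ) :
    nrm (grow H Λ₀ n) (nbX H f n) ≤ 3 * (D : ℝ) ^ 2 * (n + 1) * r ^ n * nrm Λ₀ f := by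
  set Λ := grow H Λ₀ (n + 2) with hΛ
  set x : ℕ → W → ℝ := nbX H f
  have hx0 : ∀ k v, 0 ≤ x k v := nbX_nonneg hf
  have hs : ∀ k ≤ n + 2, ∀ v, v ∉ Λ → x k v = 0 := fun k hk v hv =>
    nbX_supp hfs k v fun h => hv (grow_mono Λ₀ hk h)
  set b : ℝ := (D : ℝ) - 1
  have hb0 : 0 ≤ b := sub_nonneg.2 (by exact_mod_cast hD1)
  set a : ℕ → ℝ := fun k => nrm Λ (x k)
  have ha : ∀ k, 0 ≤ a k := fun k => Real.sqrt_nonneg _
  have hF : ∀ i j, i ≤ n + 2 → j ≤ n + 2 → form H Λ (x i) (x j) ≤ l * (a i * a j) :=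
    fun i j hi hj => form_le_norm hl hl0 _ _ (hs i hi) (hs j hj)
  have ha0 : a 0 = nrm Λ₀ f := nrm_eq (grow_mono Λ₀ (Nat.zero_le _)) hfs
  have ha1 : a 1 ≤ D * a 0 := by
    have h1 : ∑ v ∈ Λ, x 1 v ^ 2 = form H Λ (x 1) (x 0) := by
      rw [form_eq_sum _ _ (hs 1 (by omega))]
      refine sum_congr rfl fun v _ => ?_
      rw [sq]; rfl
    have h2 := hF 1 0 (by omega) (by omega)
    rw [← h1, ← nrm_sq] at h2
    rcases (ha 1).eq_or_lt with h | h
    · rw [← h]; exact mul_nonneg (Nat.cast_nonneg _) (ha 0)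
    · have h3 : a 1 ≤ l * a 0 := le_of_mul_le_mul_left (by linarith) h
      exact h3.trans (mul_le_mul_of_nonneg_right hlD (ha 0))
  have ha2 : a 2 ≤ (D : ℝ) ^ 2 * a 0 := by
    have h2 := hF 2 1 le_add_self (by omega)
    have h1 : ∑ v ∈ Λ, x 2 v ^ 2 ≤ form H Λ (x 2) (x 1) := by
      rw [form_eq_sum _ _ (hs 2 le_add_self)]
      refine sum_le_sum fun v _ => ?_
      rw [sq]
      refine mul_le_mul_of_nonneg_left ?_ (hx0 2 v)
      have := nbX_two hD f v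
      have := mul_nonneg (Nat.cast_nonneg D : (0 : ℝ) ≤ D) (hf v)
      simp only [x]
      linarith
    rw [← nrm_sq] at h1
    rcases (ha 2).eq_or_lt with h | h
    · rw [← h]; exact mul_nonneg (sq_nonneg _) (ha 0)
    · have h3 : a 2 ≤ l * a 1 := le_of_mul_le_mul_left (by linarith [h1.trans h2]) h
      refine h3.trans ((mul_le_mul hlD ha1 (ha 1) (Nat.cast_nonneg _)).trans_eq ?_)
      ring
  set E : ℕ → ℝ := fun k => ∑ v ∈ Λ, x (k + 2) v ^ 2 - form H Λ (x (k + 1)) (x (k + 2))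
    + b * ∑ v ∈ Λ, x (k + 1) v ^ 2 with hE
  have hEr : ∀ k, k + 3 ≤ n + 2 → E (k + 1) = b * E k := by
    intro k hk
    simp only [hE]
    rw [form_comm (x (k + 1 + 1)) (x (k + 1 + 2)) (hs _ (by omega)) (hs _ (by omega)),
      form_eq_sum _ _ (hs (k + 1 + 2) (by omega)),
      form_eq_sum _ _ (hs (k + 1) (by omega))]
    have h := nbX_rec hD f k
    simp only [x, add_assoc, show (1 : ℕ) + 2 = 3 from rfl, show (1 : ℕ) + 1 = 2 from rfl] at h ⊢
    simp only [h, mul_add, sum_add_distrib, mul_sub, mul_sum, ← sum_sub_distrib,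
      ← sum_add_distrib]
    exact sum_congr rfl fun v _ => by ring
  have hEn : ∀ k, k + 2 ≤ n + 2 → E k = b ^ k * E 0 := by
    intro k
    induction k with
    | zero => simp
    | succ k ih => intro hk; rw [hEr k (by omega), ih (by omega)]; ring
  have hEa : ∀ k, k + 2 ≤ n + 2 → a (k + 2) ^ 2 - l * (a (k + 1) * a (k + 2)) + b * a (k + 1) ^ 2
      ≤ E k := by
    intro k hk
    simp only [hE, a, nrm_sq]
    linarith [hF (k + 1) (k + 2) (by omega) hk]
  set Q := 2 * (D : ℝ) ^ 2 * a 0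
  have hQ : 0 ≤ Q := mul_nonneg (by positivity) (ha 0)
  have hE0 : E 0 ≤ Q ^ 2 := by
    have h1 : 0 ≤ form H Λ (x 1) (x 2) := sum_nonneg fun u _ => sum_nonneg fun w _ =>
      mul_nonneg (hx0 1 u) (hx0 2 w)
    have h2 := pow_le_pow_left₀ (ha 2) ha2 2
    have h3 := pow_le_pow_left₀ (ha 1) ha1 2
    have h4 : b ≤ (D : ℝ) ^ 2 := by
      have : (1 : ℝ) ≤ D := by exact_mod_cast hD1
      simp only [b]; nlinarith
    have h5 := mul_le_mul h4 h3 (sq_nonneg _) (sq_nonneg _)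
    simp only [hE, zero_add]
    simp only [a, mul_pow, nrm_sq] at h2 h5 ⊢
    simp only [Q, mul_pow, a, nrm_sq]
    have h6 : 0 ≤ ((D : ℝ) ^ 2) ^ 2 * ∑ v ∈ Λ, x 0 v ^ 2 :=
      mul_nonneg (sq_nonneg _) (sum_nonneg fun v _ => sq_nonneg _)
    linarith
  have hr0 : 0 < r := lt_of_lt_of_le one_pos hr1
  have hb : Real.sqrt b ≤ r := (Real.sqrt_le_left hr0.le).2 hrb
  have hstep : ∀ k, k + 2 ≤ n + 2 → a (k + 2) ≤ r * a (k + 1) + Q * r ^ k := by
    intro k hk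
    by_contra hcon
    push Not at hcon
    have hsr : b / r ≤ r := by rw [div_le_iff₀ hr0, ← sq]; exact hrb
    have h0 : 0 ≤ Q * r ^ k := by positivity
    have h1 : (a (k + 2) - r * a (k + 1)) * (a (k + 2) - r * a (k + 1))
        ≤ (a (k + 2) - r * a (k + 1)) * (a (k + 2) - b / r * a (k + 1)) :=
      mul_le_mul_of_nonneg_left (by linarith [mul_le_mul_of_nonneg_right hsr (ha (k + 1))])
        (by linarith)
    have h2 : (a (k + 2) - r * a (k + 1)) * (a (k + 2) - b / r * a (k + 1))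
        ≤ a (k + 2) ^ 2 - l * (a (k + 1) * a (k + 2)) + b * a (k + 1) ^ 2 := by
      have e : (a (k + 2) - r * a (k + 1)) * (a (k + 2) - b / r * a (k + 1))
          = a (k + 2) ^ 2 - (r + b / r) * (a (k + 1) * a (k + 2)) + b * a (k + 1) ^ 2 := by
        field_simp; ring
      rw [e]
      linarith [mul_le_mul_of_nonneg_right hrl (mul_nonneg (ha (k + 1)) (ha (k + 2)))]
    have h3 : b ^ k * E 0 ≤ (Q * r ^ k) ^ 2 := by
      refine (mul_le_mul_of_nonneg_left hE0 (pow_nonneg hb0 k)).trans_eq' rfl |>.trans ?_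
      have e : (Q * r ^ k) ^ 2 = (r ^ 2) ^ k * Q ^ 2 := by ring
      rw [e]
      exact mul_le_mul_of_nonneg_right (pow_le_pow_left₀ hb0 hrb k) (sq_nonneg Q)
    have h4 := (hEa k hk).trans (le_of_eq (hEn k hk))
    have h7 : (Q * r ^ k) ^ 2 < (a (k + 2) - r * a (k + 1)) ^ 2 :=
      pow_lt_pow_left₀ (by linarith) h0 two_ne_zero
    nlinarith
  have hind : ∀ k, k + 1 ≤ n + 2 → a (k + 1) ≤ r ^ k * ((D : ℝ) * a 0 + k * Q) := by
    intro k
    induction k with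
    | zero => intro _; simpa using ha1
    | succ k ih =>
      intro hk
      refine (hstep k (by omega)).trans ?_
      have h := mul_le_mul_of_nonneg_left (ih (by omega)) hr0.le
      have hr' : Q * r ^ k ≤ Q * r ^ (k + 1) :=
        mul_le_mul_of_nonneg_left (pow_le_pow_right₀ hr1 (Nat.le_succ k)) hQ
      push_cast
      rw [pow_succ'] at hr' ⊢
      nlinarith
  rw [← nrm_eq (grow_mono Λ₀ (show n ≤ n + 2 by omega)) (nbX_supp hfs n), ← hΛ, ← ha0]
  show a n ≤ _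
  have hD' : (1 : ℝ) ≤ D := by exact_mod_cast hD1
  rcases n with _ | k
  · simp only [Nat.cast_zero, zero_add, pow_zero, mul_one]
    nlinarith [ha 0, mul_le_mul hD' hD' zero_le_one (Nat.cast_nonneg D)]
  · refine (hind k (by omega)).trans ?_
    have h1 : r ^ k ≤ r ^ (k + 1) := pow_le_pow_right₀ hr1 (Nat.le_succ k)
    have h2 : (D : ℝ) * a 0 + k * Q ≤ 3 * (D : ℝ) ^ 2 * (k + 1 + 1) * a 0 := by
      have e1 : (D : ℝ) * a 0 ≤ (D : ℝ) ^ 2 * a 0 :=
        mul_le_mul_of_nonneg_right (by nlinarith) (ha 0)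
      have e2 : 0 ≤ (k : ℝ) * ((D : ℝ) ^ 2 * a 0) :=
        mul_nonneg (Nat.cast_nonneg k) (mul_nonneg (sq_nonneg _) (ha 0))
      have e3 : 0 ≤ (D : ℝ) ^ 2 * a 0 := mul_nonneg (sq_nonneg _) (ha 0)
      simp only [Q]
      linarith
    refine (mul_le_mul h1 h2 (add_nonneg (mul_nonneg (Nat.cast_nonneg _) (ha 0))
      (mul_nonneg (Nat.cast_nonneg _) hQ)) (pow_nonneg hr0.le _)).trans_eq ?_
    push_cast
    ring

omit [DecidableEq W] in
lemma sum_mul_le_nrm (Λ : Finset W) (a b : W → ℝ) :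
    ∑ x ∈ Λ, a x * b x ≤ nrm Λ a * nrm Λ b :=
  Real.sum_mul_le_sqrt_mul_sqrt Λ a b

lemma sum_succ_geom {q : ℝ} (h0 : 0 ≤ q) (h1 : q < 1) (N : ℕ) :
    ∑ n ∈ range N, ((n : ℝ) + 1) * q ^ n ≤ 1 / (1 - q) ^ 2 := by
  have e : ∀ N : ℕ, (1 - q) ^ 2 * ∑ n ∈ range N, ((n : ℝ) + 1) * q ^ n
      = 1 - (N + 1) * q ^ N + N * q ^ (N + 1) := by
    intro N
    induction N with
    | zero => simp
    | succ N ih => rw [sum_range_succ, mul_add, ih]; push_cast; ring
  rw [le_div_iff₀ (pow_pos (sub_pos.2 h1) 2), mul_comm, e]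
  have : (N : ℝ) * q ^ (N + 1) ≤ (N + 1) * q ^ N := by
    refine mul_le_mul (by linarith) (pow_le_pow_of_le_one h0 h1.le (Nat.le_succ N))
      (pow_nonneg h0 _) (by positivity)
  linarith

include hD hl hl0 hlD hr1 hrb hrl in
/-- The two-point function is a bounded bilinear form. -/
theorem tau_form_le (hD1 : 1 ≤ D) {p : ℝ} (h0 : 0 ≤ p) (h1 : p ≤ 1) (hpr : p * r < 1)
    {U : Finset (Sym2 W)} (hU : ↑U ⊆ H.edgeSet) (Λ : Finset W) {a b : W → ℝ}
    (ha : ∀ x, 0 ≤ a x) (hb : ∀ x, 0 ≤ b x) :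
    ∑ v ∈ Λ, a v * ∑ x ∈ Λ, tau p U v x * b x
      ≤ 3 * (D : ℝ) ^ 2 / (1 - p * r) ^ 2 * (nrm Λ a * nrm Λ b) := by
  classical
  set f : W → ℝ := fun x => if x ∈ Λ then b x else 0 with hfdef
  have hf : ∀ x, 0 ≤ f x := fun x => by simp only [hfdef]; split_ifs <;> simp [hb x]
  have hfs : ∀ x, x ∉ Λ → f x = 0 := fun x hx => by simp [hfdef, hx]
  have hfb : ∀ v, ∑ x ∈ Λ, tau p U v x * b x = ∑ x ∈ Λ, tau p U v x * f x := fun v =>
    sum_congr rfl fun x hx => by simp [hfdef, hx]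
  have hnf : nrm Λ f = nrm Λ b := by
    unfold nrm
    congr 1
    exact sum_congr rfl fun x hx => by simp [hfdef, hx]
  simp only [hfb]
  refine (sum_le_sum fun v _ => mul_le_mul_of_nonneg_left
    (tau_le_nbX h0 h1 hU Λ hf hfs v) (ha v)).trans ?_
  simp only [mul_sum]
  rw [sum_comm]
  have hterm : ∀ n ∈ range (U.card + 2), ∑ v ∈ Λ, a v * (p ^ n * nbX H f n v)
      ≤ 3 * (D : ℝ) ^ 2 * (nrm Λ a * nrm Λ b) * (((n : ℝ) + 1) * (p * r) ^ n) := by
    intro n _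
    have h2 : ∑ v ∈ Λ, a v * nbX H f n v ≤ nrm Λ a * nrm (grow H Λ n) (nbX H f n) := by
      refine (sum_mul_le_nrm Λ a _).trans (mul_le_mul_of_nonneg_left ?_ (Real.sqrt_nonneg _))
      exact Real.sqrt_le_sqrt (sum_le_sum_of_subset_of_nonneg
        (grow_mono (H := H) Λ (Nat.zero_le n) : Λ ⊆ grow H Λ n) fun v _ _ => sq_nonneg _)
    have h3 := mul_le_mul_of_nonneg_left
      (nrm_nbX_le hD hl hl0 hlD hr1 hrb hrl hD1 hf hfs n) (Real.sqrt_nonneg (∑ v ∈ Λ, a v ^ 2))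
    rw [hnf] at h3
    have h4 := mul_le_mul_of_nonneg_left (h2.trans h3) (pow_nonneg h0 n)
    calc ∑ v ∈ Λ, a v * (p ^ n * nbX H f n v) = p ^ n * ∑ v ∈ Λ, a v * nbX H f n v := by
          rw [mul_sum]; exact sum_congr rfl fun v _ => by ring
      _ ≤ _ := h4
      _ = _ := by simp only [nrm, mul_pow]; ring
  refine (sum_le_sum hterm).trans ?_
  rw [← mul_sum]
  refine (mul_le_mul_of_nonneg_left (sum_succ_geom (mul_nonneg h0 (le_trans zero_le_one hr1)) hpr _)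
    (mul_nonneg (by positivity) (mul_nonneg (Real.sqrt_nonneg _) (Real.sqrt_nonneg _)))).trans_eq ?_
  simp only [nrm]
  ring

include hD hl hl0 hlD hr1 hrb hrl in
/-- Connections to far vertices are unlikely. -/
theorem tau_decay (hD1 : 1 ≤ D) {p : ℝ} (h0 : 0 ≤ p) (h1 : p ≤ 1) (hpr : p * r < 1)
    {U : Finset (Sym2 W)} (hU : ↑U ⊆ H.edgeSet) {x v : W} {k : ℕ} (hv : v ∉ grow H {x} k) :
    tau p U v x ≤ 3 * (D : ℝ) ^ 2 / (1 - Real.sqrt (p * r)) ^ 2 * Real.sqrt (p * r) ^ k := by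
  classical
  set f : W → ℝ := fun y => if y = x then 1 else 0 with hfdef
  have hf : ∀ y, 0 ≤ f y := fun y => by simp only [hfdef]; split_ifs <;> simp
  have hfs : ∀ y, y ∉ ({x} : Finset W) → f y = 0 := fun y hy => by
    simp only [mem_singleton] at hy; simp [hfdef, hy]
  have h := tau_le_nbX h0 h1 hU {x} hf hfs v
  simp only [sum_singleton, hfdef, if_true, mul_one] at h
  refine h.trans ?_
  set s := Real.sqrt (p * r)
  have hpr0 : 0 ≤ p * r := mul_nonneg h0 (le_trans zero_le_one hr1)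
  have hs0 : 0 ≤ s := Real.sqrt_nonneg _
  have hs1 : s < 1 := (Real.sqrt_lt' one_pos).2 (by simpa using hpr)
  have hss : s ^ 2 = p * r := Real.sq_sqrt hpr0
  have hterm : ∀ n ∈ range (U.card + 2), p ^ n * nbX H f n v
      ≤ 3 * (D : ℝ) ^ 2 * s ^ k * (((n : ℝ) + 1) * s ^ n) := by
    intro n _
    by_cases hn : v ∈ grow H {x} n
    · have hkn : k ≤ n := by
        by_contra hlt
        exact hv (grow_mono {x} (not_le.1 hlt).le hn)
      have h2 : nbX H f n v ≤ nrm (grow H {x} n) (nbX H f n) :=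
        Real.le_sqrt_of_sq_le (single_le_sum (f := fun u => nbX H f n u ^ 2)
          (fun u _ => sq_nonneg _) hn)
      have h3 : nrm {x} f = 1 := by simp [nrm, hfdef]
      have h4 := h2.trans (nrm_nbX_le hD hl hl0 hlD hr1 hrb hrl hD1 hf hfs n)
      rw [h3, mul_one] at h4
      calc p ^ n * nbX H f n v ≤ p ^ n * (3 * (D : ℝ) ^ 2 * (n + 1) * r ^ n) :=
            mul_le_mul_of_nonneg_left h4 (pow_nonneg h0 n)
        _ = 3 * (D : ℝ) ^ 2 * ((n : ℝ) + 1) * (p * r) ^ n := by rw [mul_pow]; ring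
        _ = 3 * (D : ℝ) ^ 2 * ((n : ℝ) + 1) * (s ^ n * s ^ n) := by rw [← hss]; ring
        _ ≤ 3 * (D : ℝ) ^ 2 * ((n : ℝ) + 1) * (s ^ k * s ^ n) := by
          refine mul_le_mul_of_nonneg_left (mul_le_mul_of_nonneg_right ?_ (pow_nonneg hs0 n))
            (by positivity)
          exact pow_le_pow_of_le_one hs0 hs1.le hkn
        _ = _ := by ring
    · rw [nbX_supp hfs n v hn, mul_zero]
      positivity
  refine (sum_le_sum hterm).trans ?_
  rw [← mul_sum]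
  refine (mul_le_mul_of_nonneg_left (sum_succ_geom hs0 hs1 _) (by positivity)).trans_eq ?_
  ring

end Vale.Agent.P165.HighDim
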