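import Vale.Agent.P165.HighDim.Diagram

/-!
The derivative of the expected cluster size from below.
-/

open Finset

namespace Vale.Agent.P165.HighDim

variable {W : Type*} [DecidableEq W] {p : ℝ}

lemma conn_cases {S U : Finset (Sym2 W)} (hS : S ⊆ U) {v z : W} (h : conn v z S) (c : Finset W) :
    conn v z (S ∩ edgesAvoid c U) ∨ ∃ w ∈ c, Box (conn v w) (conn w z) S := by
  classical
  obtain ⟨q₀⟩ := mem_cl_single.1 h
  set q := q₀.bypass
  have hq : q.IsPath := q₀.bypass_isPath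
  have sub : ∀ {a b : W} (t : (SimpleGraph.fromEdgeSet (S : Set (Sym2 W))).Walk a b),
      t.edges.toFinset ⊆ S := fun t e he => by
    have := t.edges_subset_edgeSet (List.mem_toFinset.1 he)
    rw [SimpleGraph.edgeSet_fromEdgeSet] at this
    exact this.1
  by_cases hc : ∃ w ∈ c, w ∈ q.support
  · obtain ⟨w, hw, hwq⟩ := hc
    refine Or.inr ⟨w, hw, (q.takeUntil w hwq).edges.toFinset, (q.dropUntil w hwq).edges.toFinset,
      sub _, sub _, ?_, mem_cl_of_walk _ fun e he => List.mem_toFinset.2 he,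
      mem_cl_of_walk _ fun e he => List.mem_toFinset.2 he⟩
    have hnd := hq.isTrail.edges_nodup
    rw [show q.edges = (q.takeUntil w hwq).edges ++ (q.dropUntil w hwq).edges by
      conv_lhs => rw [← q.take_spec hwq]
      exact SimpleGraph.Walk.edges_append _ _] at hnd
    rw [Finset.disjoint_left]
    intro e he he'
    exact (List.nodup_append.1 hnd).2.2 e (List.mem_toFinset.1 he) e (List.mem_toFinset.1 he') rfl
  · push Not at hc
    refine Or.inl (mem_cl_of_walk q fun e he => ?_)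
    have heS := sub q (List.mem_toFinset.2 he)
    exact mem_inter.2 ⟨heS, mem_filter.2 ⟨hS heS, fun w hw hwe =>
      hc w hw (q.mem_support_of_mem_edges he hwe)⟩⟩

lemma conn_through {S : Finset (Sym2 W)} {o u v : W} (h : conn o u S) (huv : u ≠ v) :
    conn o u (S.erase s(u, v)) ∨ (s(u, v) ∈ S ∧ conn o v (S.erase s(u, v))) := by
  classical
  obtain ⟨q₀⟩ := mem_cl_single.1 h
  set q := q₀.bypass
  have hq : q.IsPath := q₀.bypass_isPath
  have sub : ∀ {a b : W} (t : (SimpleGraph.fromEdgeSet (S : Set (Sym2 W))).Walk a b),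
      ∀ e ∈ t.edges, e ∈ S := fun t e he => by
    have := t.edges_subset_edgeSet he
    rw [SimpleGraph.edgeSet_fromEdgeSet] at this
    exact this.1
  by_cases he : s(u, v) ∈ q.edges
  · have hv : v ∈ q.support := q.mem_support_of_mem_edges he (Sym2.mem_mk_right u v)
    refine Or.inr ⟨sub q _ he, mem_cl_of_walk (q.takeUntil v hv) fun e he' => mem_erase.2 ⟨?_, ?_⟩⟩
    · rintro rfl
      exact SimpleGraph.Walk.endpoint_notMem_support_takeUntil hq hv huv
        ((q.takeUntil v hv).mem_support_of_mem_edges he' (Sym2.mem_mk_left u v))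
    · exact sub _ e he'
  · exact Or.inl (mem_cl_of_walk q fun e he' =>
      mem_erase.2 ⟨fun h' => he (h' ▸ he'), sub q e he'⟩)

lemma tau_erase_ge (h0 : 0 ≤ p) (h1 : p ≤ 1) {U : Finset (Sym2 W)} {o u v : W} (huv : u ≠ v) :
    tau p U o u ≤ tau p (U.erase s(u, v)) o u + p * tau p U o v := by
  classical
  set e := s(u, v)
  by_cases he : e ∈ U
  swap
  · rw [erase_eq_of_notMem he]
    exact le_add_of_nonneg_right (mul_nonneg h0 (tau_nonneg h0 h1 _ _ _))
  have hins := pr_insert p (notMem_erase e U) (conn o u)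
  rw [insert_erase he] at hins
  have hU' : ∀ S, S ⊆ U.erase e → e ∉ S := fun S hS h => notMem_erase e U (hS h)
  have h2 : pr p (U.erase e) (fun S => conn o u (insert e S))
      ≤ pr p (U.erase e) (conn o u) + pr p (U.erase e) (conn o v) := by
    rw [← pr_or_and]
    refine le_trans (pr_mono h0 h1 fun S hS h => ?_)
      (le_add_of_nonneg_right (pr_nonneg h0 h1 _ _))
    rcases conn_through h huv with h' | ⟨-, h'⟩ <;> rw [erase_insert (hU' S hS)] at h'
    exacts [Or.inl h', Or.inr h']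
  have h3 := mul_le_mul_of_nonneg_left h2 h0
  have h4 := mul_le_mul_of_nonneg_left (tau_mono h0 h1 (erase_subset e U) o v) h0
  simp only [tau] at *
  linarith

/-- The pivotal event: `u` in the cluster of `o`, `v` outside, `v` joined to `z`. -/
def pivEvent (o u v z : W) (S : Finset (Sym2 W)) : Prop :=
  conn o u S ∧ ¬ conn o v S ∧ conn v z S

lemma pivEvent_pr (h0 : 0 ≤ p) (h1 : p ≤ 1) {U : Finset (Sym2 W)} (Ω : Finset W)
    (hΩ : ∀ e ∈ U, ∀ x ∈ e, x ∈ Ω) {o u v z : W} (ho : o ∈ Ω) (hv : v ∈ Ω) :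
    tau p U o u * tau p U v z
      - 2 * ∑ w ∈ Ω, (∑ y ∈ Ω, tau p U o y * tau p U y u * tau p U y w)
          * tau p U v w * tau p U w z
      ≤ pr p U (pivEvent o u v z) := by
  classical
  set 𝒞 := Ω.powerset.filter fun c => u ∈ c ∧ v ∉ c with h𝒞
  set E : Finset W → Finset (Sym2 W) → Prop := fun c T =>
    cl {o} T = (↑c : Set W) with hE
  set F : Finset W → Finset (Sym2 W) → Prop := fun c S =>
    cl {o} (S ∩ edgesMeet c U) = (↑c : Set W)
  have hclΩ : ∀ S, S ⊆ U → cl {o} S ⊆ (↑Ω : Set W) := fun S hS =>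
    cl_subset (by simpa using ho) fun a b _ hab => mem_coe.2 (hΩ _ (hS hab) b (Sym2.mem_mk_right a b))
  have hfull : ∀ c S, S ⊆ U → F c S → cl {o} S = (↑c : Set W) := by
    intro c S hS h
    refine subset_antisymm ?_ (h ▸ cl_mono subset_rfl inter_subset_left)
    refine cl_subset (h ▸ subset_cl _ _) fun a b ha hab => h ▸ cl_step (h.symm ▸ ha) ?_
    exact mem_inter.2 ⟨hab, mem_filter.2 ⟨hS hab, a, ha, Sym2.mem_mk_left a b⟩⟩
  have hFof : ∀ S, S ⊆ U → F (Ω.filter fun x => x ∈ cl {o} S) S := by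
    intro S hS
    set c := Ω.filter fun x => x ∈ cl {o} S with hc
    have hmem : ∀ {x}, x ∈ c ↔ x ∈ cl {o} S := fun {x} =>
      ⟨fun h => (mem_filter.1 h).2, fun h => mem_filter.2 ⟨hclΩ S hS h, h⟩⟩
    refine subset_antisymm (fun x hx => hmem.2 (cl_mono subset_rfl inter_subset_left hx))
      fun x hx => ?_
    have : cl {o} S ⊆ cl {o} (S ∩ edgesMeet c U) ∩ (↑c : Set W) := by
      refine cl_subset (Set.singleton_subset_iff.2 ⟨subset_cl _ _ rfl, hmem.2 (subset_cl _ _ rfl)⟩)
        fun a b ⟨ha, hac⟩ hab => ⟨cl_step ha (mem_inter.2 ⟨hab, mem_filter.2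
          ⟨hS hab, a, hac, Sym2.mem_mk_left a b⟩⟩), hmem.2 (cl_step (hmem.1 hac) hab)⟩
    exact (this (hmem.1 hx)).1
  set P : Finset W → ℝ := fun c => pr p (edgesMeet c U) (E c) with hP
  have hPF : ∀ c, P c = pr p U (F c) := fun c =>
    (pr_marginal p (filter_subset _ _) (E c)).symm
  have hP0 : ∀ c, 0 ≤ P c := fun c => pr_nonneg h0 h1 _ _
  -- each cluster
  have hc1 : ∀ c, P c * (tau p U v z - ∑ w ∈ c, tau p U v w * tau p U w z)
      ≤ pr p U (fun S => F c S ∧ conn v z (S ∩ edgesAvoid c U)) := by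
    intro c
    have hd : Disjoint (edgesMeet c U) (edgesAvoid c U) := disjoint_left.2 fun e he he' => by
      obtain ⟨w, hw, hwe⟩ := (mem_filter.1 he).2
      exact (mem_filter.1 he').2 w hw hwe
    have hun : edgesMeet c U ∪ edgesAvoid c U = U := by
      ext e
      simp only [mem_union, edgesMeet, edgesAvoid, mem_filter]
      constructor
      · rintro (h | h) <;> exact h.1
      · intro h
        by_cases hh : ∃ w ∈ c, w ∈ e
        · exact Or.inl ⟨h, hh⟩
        · exact Or.inr ⟨h, fun w hw hwe => hh ⟨w, hw, hwe⟩⟩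
    have hsplit := pr_split p hd (E c) (conn v z)
    rw [hun] at hsplit
    show _ ≤ pr p U (fun S => E c (S ∩ edgesMeet c U) ∧ conn v z (S ∩ edgesAvoid c U))
    rw [hsplit]
    refine mul_le_mul_of_nonneg_left ?_ (hP0 c)
    have hmarg : pr p (edgesAvoid c U) (conn v z)
        = pr p U (fun S => conn v z (S ∩ edgesAvoid c U)) :=
      (pr_marginal p (filter_subset _ _) _).symm
    rw [sub_le_iff_le_add, hmarg]
    have hle : pr p U (conn v z) ≤ pr p U (fun S => conn v z (S ∩ edgesAvoid c U))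
        + pr p U (fun S => ∃ w ∈ c, Box (conn v w) (conn w z) S) := by
      rw [← pr_or_and]
      exact le_trans (pr_mono h0 h1 fun S hS h => conn_cases hS h c)
        (le_add_of_nonneg_right (pr_nonneg h0 h1 _ _))
    refine hle.trans (add_le_add le_rfl ?_)
    refine (pr_le_sum h0 h1 c (fun w => Box (conn v w) (conn w z)) fun S _ h => h).trans ?_
    exact sum_le_sum fun w _ => pr_conn_box_le h0 h1 U v w w z
  have hdis : ∀ c ∈ 𝒞, ∀ d ∈ 𝒞, ∀ S, S ⊆ U → F c S → F d S → c = d :=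
    fun c _ d _ S hS h h' => coe_injective ((hfull c S hS h).symm.trans (hfull d S hS h'))
  have hsum : ∑ c ∈ 𝒞, P c * (tau p U v z - ∑ w ∈ c, tau p U v w * tau p U w z)
      ≤ pr p U (pivEvent o u v z) := by
    refine (sum_le_sum fun c _ => hc1 c).trans (sum_pr_le h0 h1 𝒞 _ ?_
      fun c hc d hd S hS h h' => hdis c hc d hd S hS h.1 h'.1)
    intro c hc S hS ⟨hF, hz⟩
    obtain ⟨-, huc, hvc⟩ := mem_filter.1 hc
    have hcl := hfull c S hS hF
    refine ⟨?_, fun h => hvc ?_, cl_mono subset_rfl inter_subset_left hz⟩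
    · show u ∈ cl {o} S
      rw [hcl]; exact huc
    · have : v ∈ cl {o} S := h
      rw [hcl] at this
      exact this
  -- the total and the defect
  have htot : pr p U (fun S => conn o u S ∧ ¬ conn o v S) ≤ ∑ c ∈ 𝒞, P c := by
    simp only [hPF]
    refine pr_le_sum h0 h1 𝒞 F fun S hS h => ⟨Ω.filter fun x => x ∈ cl {o} S,
      mem_filter.2 ⟨mem_powerset.2 (filter_subset _ _), mem_filter.2 ⟨hclΩ S hS h.1, h.1⟩,
        fun h' => h.2 (mem_filter.1 h').2⟩, hFof S hS⟩
  have hu : tau p U o u ≤ pr p U (fun S => conn o u S ∧ ¬ conn o v S)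
      + pr p U (fun S => conn o u S ∧ conn o v S) := by
    rw [← pr_or_and]
    refine le_trans (pr_mono h0 h1 fun S _ h => ?_) (le_add_of_nonneg_right (pr_nonneg h0 h1 _ _))
    by_cases h' : conn o v S
    exacts [Or.inr ⟨h, h'⟩, Or.inl ⟨h, h'⟩]
  set T : W → ℝ := fun w => ∑ y ∈ Ω, tau p U o y * tau p U y u * tau p U y w with hT
  have hthree : ∀ w, pr p U (fun S => conn o u S ∧ conn o w S) ≤ T w := fun w =>
    pr_three_le h0 h1 U Ω o u w fun y hy => mem_coe.1 (hclΩ U subset_rfl hy)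
  have hcw : ∑ c ∈ 𝒞, P c * ∑ w ∈ c, tau p U v w * tau p U w z
      ≤ ∑ w ∈ Ω, T w * tau p U v w * tau p U w z := by
    have e : ∀ c ∈ 𝒞, P c * ∑ w ∈ c, tau p U v w * tau p U w z
        = ∑ w ∈ Ω, (if w ∈ c then P c else 0) * (tau p U v w * tau p U w z) := fun c hc => by
      simp only [ite_mul, zero_mul]
      rw [mul_sum, ← sum_filter, filter_mem_eq_inter,
        inter_eq_right.2 (mem_powerset.1 (mem_filter.1 hc).1)]
    rw [sum_congr rfl e, sum_comm]
    refine sum_le_sum fun w _ => ?_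
    rw [← sum_mul, mul_assoc, ← sum_filter]
    refine mul_le_mul_of_nonneg_right ?_
      (mul_nonneg (tau_nonneg h0 h1 _ _ _) (tau_nonneg h0 h1 _ _ _))
    refine le_trans ?_ (hthree w)
    simp only [hPF]
    refine sum_pr_le h0 h1 _ F (fun c hc S hS hF => ?_)
      fun c hc d hd S hS h h' => hdis c (mem_filter.1 hc).1 d (mem_filter.1 hd).1 S hS h h'
    obtain ⟨hc', hw⟩ := mem_filter.1 hc
    refine ⟨?_, ?_⟩
    · show u ∈ cl {o} S
      rw [hfull c S hS hF]; exact (mem_filter.1 hc').2.1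
    · show w ∈ cl {o} S
      rw [hfull c S hS hF]; exact hw
  have hvv : pr p U (fun S => conn o u S ∧ conn o v S) * tau p U v z
      ≤ ∑ w ∈ Ω, T w * tau p U v w * tau p U w z := by
    have h1' : tau p U v v = 1 := by
      rw [tau, ← pr_true p U]
      exact pr_congr fun S _ => ⟨fun _ => trivial, fun _ => subset_cl _ _ rfl⟩
    refine le_trans ?_ (single_le_sum (f := fun w => T w * tau p U v w * tau p U w z)
      (fun w _ => mul_nonneg (mul_nonneg (sum_nonneg fun y _ => mul_nonneg (mul_nonneg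
        (tau_nonneg h0 h1 _ _ _) (tau_nonneg h0 h1 _ _ _)) (tau_nonneg h0 h1 _ _ _))
          (tau_nonneg h0 h1 _ _ _)) (tau_nonneg h0 h1 _ _ _)) hv)
    rw [h1', mul_one]
    exact mul_le_mul_of_nonneg_right (hthree v) (tau_nonneg h0 h1 _ _ _)
  have hmul : (tau p U o u - pr p U (fun S => conn o u S ∧ conn o v S)) * tau p U v z
      ≤ (∑ c ∈ 𝒞, P c) * tau p U v z :=
    mul_le_mul_of_nonneg_right (by linarith) (tau_nonneg h0 h1 _ _ _)
  simp only [mul_sub, sum_sub_distrib, ← sum_mul] at hsum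
  linarith

variable {H : SimpleGraph W} [H.LocallyFinite] {D : ℕ}

/-- The derivative of the expected cluster size inside a finite edge set. -/
theorem deriv_ge (hD : ∀ x, (H.neighborFinset x).card = D) (h0 : 0 ≤ p) (h1 : p ≤ 1)
    {U : Finset (Sym2 W)} {Ω : Finset W}
    (hΩ : ∀ e ∈ U, ∀ x ∈ e, x ∈ Ω) {o : W} (ho : o ∈ Ω) {B Λ : Finset W}
    (hN : ∀ u ∈ B, ∀ v ∈ H.neighborFinset u, v ∈ Ω ∧ s(u, v) ∈ U)
    {M L Φ : ℝ} (hM : ∀ (x : W) (Λ' : Finset W), ∑ z ∈ Λ', tau p U x z ≤ M)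
    (hL : ∀ u ∈ B, ∀ v ∈ H.neighborFinset u, L ≤ ∑ z ∈ Λ, tau p U v z) (hLM : p * M ≤ L)
    (hΦ : ∀ y ∈ Ω, ∑ u ∈ B, ∑ v ∈ H.neighborFinset u, ∑ w ∈ Ω,
        tau p (U.erase s(u, v)) y u * tau p (U.erase s(u, v)) v w * tau p (U.erase s(u, v)) w y ≤ Φ) :
    (D : ℝ) * (∑ u ∈ B, tau p U o u - p * M) * (L - p * M) - 2 * Φ * M ^ 2
      ≤ ∑ a ∈ U, ∑ z ∈ Λ, (pr p (U.erase a) (fun S => conn o z (insert a S))
          - pr p (U.erase a) (conn o z)) := by
  classical
  set P := B.sigma fun u => H.neighborFinset u with hP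
  have hne : ∀ x ∈ P, x.1 ≠ x.2 := fun x hx =>
    ((SimpleGraph.mem_neighborFinset H _ _).1 (mem_sigma.1 hx).2).ne
  have hM0 : 0 ≤ M := by simpa using hM o ∅
  -- pivotality
  have hpiv : ∀ z, ∑ x ∈ P, pr p (U.erase s(x.1, x.2)) (pivEvent o x.1 x.2 z)
      ≤ ∑ a ∈ U, (pr p (U.erase a) (fun S => conn o z (insert a S))
        - pr p (U.erase a) (conn o z)) := by
    intro z
    rw [← sum_fiberwise_of_maps_to (g := fun x : Σ _ : W, W => s(x.1, x.2)) (t := U)
      (fun x hx => (hN x.1 (mem_sigma.1 hx).1 x.2 (mem_sigma.1 hx).2).2)]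
    refine sum_le_sum fun a ha => ?_
    have e : pr p (U.erase a) (fun S => conn o z (insert a S)) - pr p (U.erase a) (conn o z)
        = pr p (U.erase a) (fun S => conn o z (insert a S) ∧ ¬ conn o z S) := by
      rw [sub_eq_iff_eq_add]
      simp only [pr, sum_filter, ← sum_add_distrib]
      refine sum_congr rfl fun S _ => ?_
      have := incr_conn o z S _ (subset_insert a S)
      by_cases h2 : conn o z S
      · simp [h2, this h2]
      · simp [h2]
    rw [e]
    have e2 : ∀ x ∈ P.filter (fun x => s(x.1, x.2) = a),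
        pr p (U.erase s(x.1, x.2)) (pivEvent o x.1 x.2 z)
          = pr p (U.erase a) (pivEvent o x.1 x.2 z) := fun x hx => by rw [(mem_filter.1 hx).2]
    rw [sum_congr rfl e2]
    refine sum_pr_le h0 h1 _ (fun (x : Σ _ : W, W) => pivEvent o x.1 x.2 z) ?_ ?_
    · rintro ⟨u, v⟩ hx S _ ⟨hu, hv, hz⟩
      obtain ⟨-, rfl⟩ := mem_filter.1 hx
      refine ⟨?_, fun h => hv ?_⟩
      · have hv' : v ∈ cl {o} (insert s(u, v) S) :=
          cl_step (cl_mono subset_rfl (subset_insert _ _) hu) (mem_insert_self _ _)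
        exact cl_trans (Set.singleton_subset_iff.2 hv') (subset_insert _ S) hz
      · exact mem_cl_single.2 ((mem_cl_single.1 h).trans (mem_cl_single.1 hz).symm)
    · rintro ⟨u, v⟩ hx ⟨u', v'⟩ hx' S _ ⟨hu, hv, -⟩ ⟨hu', hv', -⟩
      have e3 : s(u, v) = s(u', v') := (mem_filter.1 hx).2.trans (mem_filter.1 hx').2.symm
      rcases Sym2.eq_iff.1 e3 with ⟨rfl, rfl⟩ | ⟨rfl, rfl⟩
      · rfl
      · exact absurd hu' hv
  rw [sum_comm (s := U)]
  refine le_trans ?_ (sum_le_sum fun z _ => hpiv z)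
  have hstep : ∀ z ∈ Λ, ∀ x ∈ P,
      tau p (U.erase s(x.1, x.2)) o x.1 * tau p (U.erase s(x.1, x.2)) x.2 z
        - 2 * ∑ w ∈ Ω, (∑ y ∈ Ω, tau p (U.erase s(x.1, x.2)) o y
          * tau p (U.erase s(x.1, x.2)) y x.1 * tau p (U.erase s(x.1, x.2)) y w)
          * tau p (U.erase s(x.1, x.2)) x.2 w * tau p (U.erase s(x.1, x.2)) w z
        ≤ pr p (U.erase s(x.1, x.2)) (pivEvent o x.1 x.2 z) := fun z _ x hx =>
    pivEvent_pr h0 h1 Ω (fun e he => hΩ e (erase_subset _ _ he)) ho
      (hN x.1 (mem_sigma.1 hx).1 x.2 (mem_sigma.1 hx).2).1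
  refine le_trans ?_ (sum_le_sum fun z hz => sum_le_sum fun x hx => hstep z hz x hx)
  rw [sum_comm]
  simp only [sum_sub_distrib, ← mul_sum]
  refine sub_le_sub ?_ ?_
  · -- gain
    have hpair : ∀ x ∈ P, (L - p * M) * (tau p U o x.1 - p * tau p U o x.2)
        ≤ tau p (U.erase s(x.1, x.2)) o x.1 * ∑ z ∈ Λ, tau p (U.erase s(x.1, x.2)) x.2 z := by
      intro x hx
      have hu := tau_erase_ge h0 h1 (U := U) (o := o) (hne x hx)
      have hz : ∑ z ∈ Λ, tau p U x.2 z ≤ ∑ z ∈ Λ, tau p (U.erase s(x.1, x.2)) x.2 z + p * M := by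
        have h := fun z => tau_erase_ge h0 h1 (U := U) (o := z) (hne x hx).symm
        simp only [Sym2.eq_swap (a := x.2), tau_symm p _ _ x.2, tau_symm p _ _ x.1] at h
        refine (sum_le_sum fun z _ => h z).trans ?_
        rw [sum_add_distrib, ← mul_sum]
        exact add_le_add le_rfl (mul_le_mul_of_nonneg_left (hM x.1 Λ) h0)
      have hLx := hL x.1 (mem_sigma.1 hx).1 x.2 (mem_sigma.1 hx).2
      refine (mul_le_mul_of_nonneg_left (by linarith :
        tau p U o x.1 - p * tau p U o x.2 ≤ tau p (U.erase s(x.1, x.2)) o x.1)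
          (sub_nonneg.2 hLM)).trans ?_
      rw [mul_comm]
      exact mul_le_mul_of_nonneg_left (by linarith) (tau_nonneg h0 h1 _ _ _)
    refine le_trans ?_ (sum_le_sum hpair)
    rw [← mul_sum, mul_comm, sum_sub_distrib, ← mul_sum]
    refine mul_le_mul_of_nonneg_left ?_ (sub_nonneg.2 hLM)
    have e1 : ∑ x ∈ P, tau p U o x.1 = (D : ℝ) * ∑ u ∈ B, tau p U o u := by
      rw [hP, sum_sigma, mul_sum]
      exact sum_congr rfl fun u _ => by simp [hD, nsmul_eq_mul]
    have e2 : ∑ x ∈ P, tau p U o x.2 ≤ (D : ℝ) * M := by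
      rw [hP, sum_sigma]
      refine le_trans ?_ (mul_le_mul_of_nonneg_left
        (hM o (B.biUnion fun u => H.neighborFinset u)) (Nat.cast_nonneg D))
      rw [mul_sum]
      set V := B.biUnion fun u => H.neighborFinset u
      calc ∑ u ∈ B, ∑ v ∈ H.neighborFinset u, tau p U o v
          = ∑ u ∈ B, ∑ v ∈ V, if v ∈ H.neighborFinset u then tau p U o v else 0 := by
            refine sum_congr rfl fun u hu => ?_
            rw [← sum_filter, filter_mem_eq_inter, inter_eq_right.2]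
            exact subset_biUnion_of_mem (fun u => H.neighborFinset u) hu
        _ = ∑ v ∈ V, ∑ u ∈ B, if v ∈ H.neighborFinset u then tau p U o v else 0 := sum_comm
        _ ≤ ∑ v ∈ V, (D : ℝ) * tau p U o v := by
            refine sum_le_sum fun v _ => ?_
            rw [← sum_filter, sum_const, nsmul_eq_mul]
            refine mul_le_mul_of_nonneg_right ?_ (tau_nonneg h0 h1 _ _ _)
            rw [← hD v]
            refine Nat.cast_le.2 (card_le_card fun u hu => ?_)
            exact (SimpleGraph.mem_neighborFinset H v u).2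
              ((SimpleGraph.mem_neighborFinset H u v).1 (mem_filter.1 hu).2).symm
    rw [e1]
    linarith [mul_le_mul_of_nonneg_left e2 h0]
  · -- loss
    rw [mul_assoc 2 Φ]
    refine mul_le_mul_of_nonneg_left ?_ zero_le_two
    have hterm : ∀ x ∈ P, ∑ z ∈ Λ, ∑ w ∈ Ω, (∑ y ∈ Ω, tau p (U.erase s(x.1, x.2)) o y
          * tau p (U.erase s(x.1, x.2)) y x.1 * tau p (U.erase s(x.1, x.2)) y w)
          * tau p (U.erase s(x.1, x.2)) x.2 w * tau p (U.erase s(x.1, x.2)) w z
        ≤ M * ∑ y ∈ Ω, tau p U o y * ∑ w ∈ Ω, tau p (U.erase s(x.1, x.2)) y x.1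
          * tau p (U.erase s(x.1, x.2)) x.2 w * tau p (U.erase s(x.1, x.2)) w y := by
      intro x _
      set τ' := tau p (U.erase s(x.1, x.2))
      have n : ∀ a b, 0 ≤ τ' a b := tau_nonneg h0 h1 _
      rw [sum_comm]
      simp only [← mul_sum]
      refine (sum_le_sum fun w _ => mul_le_mul_of_nonneg_left
        ((sum_le_sum fun z _ => tau_mono h0 h1 (erase_subset _ U) w z).trans (hM w Λ))
        (mul_nonneg (sum_nonneg fun y _ => mul_nonneg (mul_nonneg (n _ _) (n _ _)) (n _ _))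
          (n _ _))).trans ?_
      simp only [mul_sum, sum_mul]
      rw [sum_comm]
      refine sum_le_sum fun y _ => sum_le_sum fun w _ => ?_
      rw [show τ' y w = τ' w y from tau_symm p _ y w]
      have := mul_le_mul_of_nonneg_right (tau_mono h0 h1 (erase_subset s(x.1, x.2) U) o y)
        (mul_nonneg (mul_nonneg (mul_nonneg (n y x.1) (n x.2 w)) (n w y)) hM0)
      linarith
    refine (sum_le_sum hterm).trans ?_
    rw [← mul_sum, sum_comm]
    simp only [← mul_sum]
    refine (mul_le_mul_of_nonneg_left (sum_le_sum fun y hy => mul_le_mul_of_nonneg_left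
      (le_trans (le_of_eq (sum_sigma _ _ _)) (hΦ y hy)) (tau_nonneg h0 h1 U o y)) hM0).trans ?_
    rw [← sum_mul]
    have hΦ0 : 0 ≤ Φ := le_trans (sum_nonneg fun u _ => sum_nonneg fun v _ => sum_nonneg fun w _ =>
      mul_nonneg (mul_nonneg (tau_nonneg h0 h1 _ _ _) (tau_nonneg h0 h1 _ _ _))
        (tau_nonneg h0 h1 _ _ _)) (hΦ o ho)
    have := mul_le_mul_of_nonneg_left (mul_le_mul_of_nonneg_right (hM o Ω) hΦ0) hM0
    linarith

end Vale.Agent.P165.HighDim
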